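import Vale.Agent.P167.H433.Flat
import Vale.Agent.P167.N.NET.Tube

/-!
# P167, `0 < q < 1`: extension of an arm at a flat boundary site

`land`: the arm of `z` in the half box ends on the right half of the flat side. `leave`: it continues
through a tube which starts there and leaves the half box through the other sides. `F ≥ 0` is any
factor which does not read the squares of the tubes.
-/

set_option autoImplicit false

namespace Vale.Agent.P167.H433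

open Finset Vale.Agent.P167 Vale.Agent.P167.FK Vale.Agent.P167.FKA Vale.Agent.P167.H871
  Vale.Agent.P167.H632 Vale.Agent.P167.H192.TA Vale.Agent.P167.N.NET Vale.Agent.P167.H718
open Vale.Agent.P145.FB (PStep PConn)
open Relation (ReflTransGen)

variable {Q : ℝ} {z : Pt} {m i : ℕ} {e : Bool} {D T : Finset Pt} {η : Cfg} {A B : Set Pt} {F : Cfg → ℝ}

theorem ind_mono (hF0 : ∀ ω, 0 ≤ F ω) {X Y : Set Cfg} (h : X ⊆ Y) (ω : Cfg) :
    F ω * X.indicator 1 ω ≤ F ω * Y.indicator 1 ω :=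
  mul_le_mul_of_nonneg_left (Set.indicator_le_indicator_of_subset h (fun _ => zero_le_one) ω) (hF0 ω)

theorem HK1_land {G A₁ A₃ : Set Pt} (hT : (T : Set Pt) ⊆ G) : HK1 e G ↑T A₁ A₃ B ⊆ Jn e G A₁ B := by
  refine HK1_sub.trans (Jn.mono ?_ subset_rfl subset_rfl)
  exact Set.union_subset subset_rfl hT

/-- **The arm lands on the right half of the flat side.** -/
theorem land (hQ : 0 < Q) (hQ1 : Q ≤ 1) (hη : Good η) (hm : 1 ≤ m) (hz : (z.1 + z.2) % 2 = pr e)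
    (hD : HBx z m ⊆ D) (hT : T ⊆ HBx z m) (hA : A ⊆ Hs e z.2 (z.1 - m) (z.1 - 1))
    (hB : B ⊆ Hs e z.2 (z.1 + 1) (z.1 + m)) (hF0 : ∀ ω, 0 ≤ F ω)
    (hF : ∀ ω ω' : Cfg, (∀ v, v ∉ T → ω' v = ω v) → F ω' = F ω) :
    VT Q e T A B * Ex Q D η (fun ω => F ω * (Jn e ↑(HBx z m) {z} (SO e z m)).indicator 1 ω) ≤
      Ex Q D η (fun ω => F ω * (Jn e ↑(HBx z m) {z} B).indicator 1 ω) := by
  have hp := pr_not e
  have hpe := pr_or e
  have hlow : ∀ t ∈ T, z.2 ≤ t.2 := fun t ht => (mem_HBx.1 (hT ht)).2.2.1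
  refine (net1 hQ hQ1 hη (hT.trans hD) hD (quad0 hm hz).swap24 (fan_HBx e)
    (fun a ha => ?_) (fun a ha => ?_) (fun t ht htG => absurd (hT ht) htG) (fun b hb => ?_)
    (fun b hb _ => ?_) hF0 fun ω ω' h => hF ω ω' fun v hv => h v fun h2 =>
      hv (mem_sdiff.1 h2).1).trans (Ex_mono hQ fun S _ => ind_mono hF0 (HK1_land (coe_subset.2 hT)) _)
  · obtain ⟨a1, a2, a3, a4⟩ := hA ha
    exact bd_bot (c := z.2) hlow ⟨a1, a2, le_rfl, a4⟩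
  · obtain ⟨a1, a2, a3, a4⟩ := hA ha
    refine ⟨(a.1, z.2), ?_, ?_, (a.1 + 1, z.2), ?_, ?_⟩
    · rw [mem_coe, mem_HBx]; dsimp only; omega
    · unfold N.NET.Cor; dsimp only; omega
    · refine ⟨rfl, ?_, ?_, ?_⟩ <;> dsimp only <;> omega
    · unfold N.NET.Cor; dsimp only; omega
  · obtain ⟨a1, a2, a3, a4⟩ := hB hb
    exact bd_bot (c := z.2) hlow ⟨a1, a2, le_rfl, a4⟩
  · obtain ⟨a1, a2, a3, a4⟩ := hB hb
    refine ⟨(b.1 - 1, z.2), ?_, ?_, (b.1 - 1, z.2), ?_, ?_⟩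
    · rw [mem_coe, mem_HBx]; dsimp only; omega
    · unfold N.NET.Cor; dsimp only; omega
    · refine ⟨rfl, ?_, ?_, ?_⟩ <;> dsimp only <;> omega
    · unfold N.NET.Cor; dsimp only; omega

/-- Outer boundary sites are next to the fourth arc. -/
theorem nx_out (hm : 1 ≤ m) {y : Pt} (hy : y ∈ Vc e ↑(HBx z m))
    (h : y.1 = z.1 - m ∨ y.1 = z.1 + m ∨ y.2 = z.2 + m) :
    Nx e ↑(HBx z m) (SO (!e) z m ∪ Hs (!e) z.2 (z.1 - m) z.1) y := by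
  rw [HBx_rsq] at hy ⊢
  obtain ⟨y1, y2, y3, y4, y5⟩ := vc_rect hy
  have h1 : z.1 - m < z.1 + m := by omega
  have h2 : z.2 < z.2 + m := by omega
  have key : ∀ {S : Set Pt}, S ⊆ SO (!e) z m → Nx e ↑(H262.Rsq (z.1 - m) (z.1 + m) z.2 (z.2 + m)) S y →
      Nx e ↑(H262.Rsq (z.1 - m) (z.1 + m) z.2 (z.2 + m))
        (SO (!e) z m ∪ Hs (!e) z.2 (z.1 - m) z.1) y := by
    rintro S hS ⟨g, hg, h3, n, hn, h4⟩
    exact ⟨g, hg, h3, n, Or.inl (hS hn), h4⟩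
  rcases h with h | h | h
  · refine key ?_ (nx_left h1 h2 h y3 y4 y5)
    rintro x ⟨x1, x2, x3, x4⟩
    exact ⟨by omega, by omega, by omega, by omega, by omega, x4⟩
  · refine key ?_ (nx_right h1 h2 h y3 y4 y5)
    rintro x ⟨x1, x2, x3, x4⟩
    exact ⟨by omega, by omega, by omega, by omega, by omega, x4⟩
  · refine key ?_ (nx_top h1 h2 h y1 y2 y5)
    rintro x ⟨x1, x2, x3, x4⟩
    exact ⟨by omega, by omega, by omega, by omega, by omega, x4⟩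

/-- **The arm which landed on the right half is extended through a tube.** -/
theorem leave (hQ : 0 < Q) (hQ1 : Q ≤ 1) (hη : Good η) (hm : 1 ≤ m) (hz : (z.1 + z.2) % 2 = pr e)
    (hi : i ≤ m) (hD : HBx z m ⊆ D) (hT : T ⊆ D) (hA : A ⊆ Hs e z.2 (z.1 + 1) (z.1 + i))
    (hAT : A ⊆ Bd e T) (hTl : ∀ t ∈ T, t.2 < z.2 → t.1 + 1 ≤ z.1 - m ∨ z.1 + m ≤ t.1)
    (hB : B ⊆ Bd e T) (hBG : ∀ b ∈ B, b ∈ Vc e ↑(HBx z m) →
      b.1 = z.1 - m ∨ b.1 = z.1 + m ∨ b.2 = z.2 + m) (hF0 : ∀ ω, 0 ≤ F ω)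
    (hF : ∀ ω ω' : Cfg, (∀ v, v ∉ T → ω' v = ω v) → F ω' = F ω) :
    VT Q e T A B * Ex Q D η (fun ω => F ω *
        (Jn e ↑(HBx z m) {z} (Hs e z.2 (z.1 + i) (z.1 + m))).indicator 1 ω) ≤
      Ex Q D η (fun ω => F ω * (Jn e (↑(HBx z m) ∪ ↑T) {z} B).indicator 1 ω) := by
  have hp := pr_not e
  have hpe := pr_or e
  refine (net1 hQ hQ1 hη hT hD (quad1 hm hz hi) (fan_HBx e) hAT (fun a ha => ?_)
    (fun t ht htG y hy hyG => nx_out hm hyG ?_) hB (fun b hb hbG => nx_out hm hbG (hBG b hb hbG))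
    hF0 fun ω ω' h => hF ω ω' fun v hv => h v fun h2 => hv (mem_sdiff.1 h2).1).trans
      (Ex_mono hQ fun S _ => ind_mono hF0 HK1_sub _)
  · obtain ⟨a1, a2, a3, a4⟩ := hA ha
    refine ⟨(a.1 - 1, z.2), ?_, ?_, (a.1 - 1, z.2), ?_, ?_⟩
    · rw [mem_coe, mem_HBx]; dsimp only; omega
    · unfold N.NET.Cor; dsimp only; omega
    · refine ⟨rfl, ?_, ?_, ?_⟩ <;> dsimp only <;> omega
    · unfold N.NET.Cor; dsimp only; omega
  · rw [mem_coe] at ht htG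
    rw [mem_HBx] at htG
    obtain ⟨v, hv, hvy⟩ := hyG
    rw [mem_coe, mem_HBx] at hv
    have h3 := hTl t ht
    obtain ⟨c1, c2, c3⟩ := hy
    obtain ⟨d1, d2, d3⟩ := hvy
    omega

/-- **Extension of an arm of a flat boundary site**: an arch `T₁` in the half box and a tube `T₂` from
the right half of the flat side to `B`. -/
theorem ext_flat (hQ : 0 < Q) (hQ1 : Q ≤ 1) (hη : Good η) (hm : 1 ≤ m)
    (hz : (z.1 + z.2) % 2 = pr e) (hi0 : 1 ≤ i) (hi : i ≤ m) {T₁ : Finset Pt} {A₁ : Set Pt}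
    (hD : HBx z m ⊆ D) (hT1 : T₁ ⊆ HBx z m) (hA1 : A₁ ⊆ Hs e z.2 (z.1 - m) (z.1 - 1))
    (hT : T ⊆ D) (hA : A ⊆ Hs e z.2 (z.1 + 1) (z.1 + i))
    (hAT : A ⊆ Bd e T) (hTl : ∀ t ∈ T, t.2 < z.2 → t.1 + 1 ≤ z.1 - m ∨ z.1 + m ≤ t.1)
    (hB : B ⊆ Bd e T) (hBG : ∀ b ∈ B, b ∈ Vc e ↑(HBx z m) →
      b.1 = z.1 - m ∨ b.1 = z.1 + m ∨ b.2 = z.2 + m) (hF0 : ∀ ω, 0 ≤ F ω)
    (hF : ∀ ω ω' : Cfg, (∀ v, v ∉ T₁ → v ∉ T → ω' v = ω v) → F ω' = F ω) :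
    VT Q e T A B * VT Q e T₁ A₁ (Hs e z.2 (z.1 + i) (z.1 + m)) *
        Ex Q D η (fun ω => F ω * (Jn e ↑(HBx z m) {z} (SO e z m)).indicator 1 ω) ≤
      Ex Q D η (fun ω => F ω * (Jn e (↑(HBx z m) ∪ ↑T) {z} B).indicator 1 ω) := by
  have h1 := land (B := Hs e z.2 (z.1 + i) (z.1 + m)) hQ hQ1 hη hm hz hD hT1 hA1
    (fun x hx => ⟨hx.1, by have := hx.2.1; omega, hx.2.2.1, hx.2.2.2⟩) hF0
    fun ω ω' h => hF ω ω' fun v h1 _ => h v h1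
  have h2 := leave (F := F) hQ hQ1 hη hm hz hi hD hT hA hAT hTl hB hBG hF0
    fun ω ω' h => hF ω ω' fun v _ h2 => h v h2
  rw [mul_assoc]
  exact (mul_le_mul_of_nonneg_left h1 (VT_nonneg hQ e T A B)).trans h2

end Vale.Agent.P167.H433
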