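import Vale.Agent.P167.H433.Ext
import Vale.Agent.P167.N.NET.Vrs
import Vale.Agent.P167.N.AW.Sit
import Vale.Agent.P167.N.QL.K1
import Vale.Agent.P167.N.QL.LkY
import Vale.Agent.P167.H640.ND.SymX

/-!
# P167, `0 < q < 1`: arms of flat boundary sites, extension in the radius

`Arm e D z r`: the site `z` is joined by the colour `e` in `D ∩ Bq z r` to the outside of the box.
`ext_up`: the flat side is horizontal and the domain is above. `extI_flat`: `ExtI` of the abstract layer,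
any of the four directions of the flat side.
-/

set_option autoImplicit false

namespace Vale.Agent.P167.H433

open Finset Vale.Agent.P167 Vale.Agent.P167.FK Vale.Agent.P167.FKA Vale.Agent.P167.H871
  Vale.Agent.P167.H632 Vale.Agent.P167.H192.TA Vale.Agent.P167.N.NET Vale.Agent.P167.H718
open Vale.Agent.P145.FB (PStep PConn)
open Relation (ReflTransGen)
open Vale.Agent.P167.N.QL (NoArm)
open Vale.Agent.P167.N.AW (ExtI)
open Vale.Agent.P167.H601.S2 (Off)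
open Vale.Agent.P167.H760 (Tr)
open Vale.Agent.P167.H262 (Rsq mem_Rsq)

variable {Q : ℝ} {z : Pt} {e : Bool} {D : Finset Pt} {η ω : Cfg} {r r' r'' R : ℤ} {F : Cfg → ℝ}

/-- The arm of the site `z`. -/
def Arm (e : Bool) (D : Finset Pt) (z : Pt) (r : ℤ) : Set Cfg := {ω | ¬ NoArm e D (Bq z r) z ω}

/-- The domain is above the site in the box. -/
def Up (D : Finset Pt) (z : Pt) (R : ℤ) : Prop := ∀ v ∈ Bq z R, (v ∈ D ↔ z.2 ≤ v.2)

theorem mBq {v x : Pt} {r : ℤ} : v ∈ Bq x r ↔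
    (x.1 - r ≤ v.1 ∧ v.1 < x.1 + r) ∧ x.2 - r ≤ v.2 ∧ v.2 < x.2 + r := H685.LD.mem_Bq

theorem bq_sub (h : r ≤ R) : Bq z r ⊆ Bq z R := by
  intro v hv
  rw [mBq] at *
  omega

theorem isC_cor {v s : Pt} : IsC v s ↔ (s.1 = v.1 ∨ s.1 = v.1 + 1) ∧ (s.2 = v.2 ∨ s.2 = v.2 + 1) := by
  unfold IsC
  constructor <;> intro h <;> omega

/-- The steps of a path which meets squares of the box only. -/
theorem noArm_mono (h : r' ≤ r) (hN : NoArm e D (Bq z r') z ω) : NoArm e D (Bq z r) z ω := by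
  intro s v hs hv
  refine bq_sub h (hN s v ?_ hv)
  induction hs generalizing v with
  | refl => exact ReflTransGen.refl
  | @tail u w _ h2 ih =>
    have h3 := ih u (isC_cor.2 ⟨Or.inl rfl, Or.inl rfl⟩)
    refine h3.tail ?_
    obtain ⟨s1, s2, s3, s4⟩ := h2
    refine ⟨s1, s2, s3, mem_coe.2 (mem_inter.2 ⟨(mem_inter.1 (mem_coe.1 s4)).1, ?_⟩)⟩
    exact hN u _ h3 (isC_cor.2 ⟨by dsimp only; omega, by dsimp only; omega⟩)

theorem arm_anti (h : r' ≤ r) : Arm e D z r ⊆ Arm e D z r' := fun _ hω hN => hω (noArm_mono h hN)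

theorem noArm_congr {ω' : Cfg} (h : ∀ v ∈ D ∩ Bq z r, ω v = ω' v) :
    NoArm e D (Bq z r) z ω ↔ NoArm e D (Bq z r) z ω' := by
  have e1 : cs e ω ∩ (↑(D ∩ Bq z r) : Set Pt) = cs e ω' ∩ ↑(D ∩ Bq z r) := by
    ext v
    refine and_congr_left fun hv => ?_
    show ω v = e ↔ ω' v = e
    rw [h v (mem_coe.1 hv)]
  unfold NoArm
  rw [e1]

theorem arm_loc : Loc (D ∩ Bq z r) ((Arm e D z r).indicator (1 : Cfg → ℝ)) := by
  intro ω ω' h
  have h1 := noArm_congr (e := e) h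
  by_cases h2 : NoArm e D (Bq z r) z ω
  · rw [Set.indicator_of_notMem (show ω ∉ Arm e D z r from fun h3 => h3 h2),
      Set.indicator_of_notMem (show ω' ∉ Arm e D z r from fun h3 => h3 (h1.1 h2))]
  · rw [Set.indicator_of_mem (show ω ∈ Arm e D z r from h2),
      Set.indicator_of_mem (show ω' ∈ Arm e D z r from fun h3 => h2 (h1.2 h3))]
    rfl

theorem Up.inter (h : Up D z R) {m : ℕ} (hm : (m : ℤ) ≤ R) : D ∩ Bq z m = HBx z m := by
  ext v
  rw [mem_inter, mem_HBx]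
  constructor
  · rintro ⟨h1, h2⟩
    have h3 := (h v (bq_sub hm h2)).1 h1
    rw [mBq] at h2
    omega
  · intro h1
    have h2 : v ∈ Bq z m := by
      rw [mBq]
      omega
    exact ⟨(h v (bq_sub hm h2)).2 h1.2.2.1, h2⟩

/-- The arm of a flat site. -/
theorem Up.arm (h : Up D z R) {m : ℕ} (hm : (m : ℤ) ≤ R) (hm1 : 1 ≤ m)
    (hz : (z.1 + z.2) % 2 = pr e) : Arm e D z m = Jn e ↑(HBx z m) {z} (SO e z m) := by
  ext ω
  constructor
  · intro hω
    have hω' : ¬ NoArm e D (Bq z m) z ω := hω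
    unfold NoArm at hω'
    push Not at hω'
    obtain ⟨s, v, h1, h2, h3⟩ := hω'
    rw [h.inter hm] at h1
    refine ⟨z, rfl, s, ?_, h1⟩
    rw [isC_cor] at h2
    rw [mBq] at h3
    rcases pw_ends hz h1 with h4 | ⟨-, h4⟩
    · subst h4
      exfalso
      omega
    · obtain ⟨x, hx, h5⟩ := h4
      have hx' := mem_HBx.1 (mem_coe.1 hx.2)
      obtain ⟨c1, c2, c3⟩ := h5
      exact ⟨by omega, by omega, by omega, by omega, by omega, c3⟩
  · rintro ⟨z', rfl, s, ⟨s1, s2, s3, s4, s5, s6⟩, h1⟩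
    show ¬ NoArm e D (Bq z' m) z' ω
    intro hN
    rw [← h.inter hm] at h1
    have key : ∀ v : Pt, IsC v s → v ∈ Bq z' m := fun v hv => hN s v h1 hv
    have k1 := key (s.1 - 1, s.2) (isC_cor.2 ⟨by dsimp only; omega, by dsimp only; omega⟩)
    have k2 := key (s.1, s.2) (isC_cor.2 ⟨by dsimp only; omega, by dsimp only; omega⟩)
    rw [mBq] at k1 k2
    dsimp only at k1 k2
    omega

/-- **Extension in the radius**, the domain is above. -/
theorem ext_up (hQ : 0 < Q) (hQ1 : Q ≤ 1) (hV : VRS Q) (E : ℕ) : ∃ C : ℝ, 1 ≤ C ∧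
    ∀ {e : Bool} {z : Pt} {D : Finset Pt} {η : Cfg} {r' r'' R : ℤ}, Good η →
      (z.1 + z.2) % 2 = pr e → Up D z R → 6 ≤ r' → r' ≤ r'' → r'' ≤ R → r'' ≤ 2 * E * r' →
      ∀ F : Cfg → ℝ, (∀ ω, 0 ≤ F ω) → Off D (· ∈ Bq z r'') F →
        Ex Q D η (fun ω => (Arm e D z r').indicator 1 ω * F ω) ≤
          C * Ex Q D η (fun ω => (Arm e D z r'').indicator 1 ω * F ω) := by
  obtain ⟨κ₁, h1, h1', hA⟩ := VT_arch hQ hQ1 hV 4
  obtain ⟨κ₂, h2, h2', hR⟩ := hV (8 * E)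
  refine ⟨(κ₂ * κ₁)⁻¹, (one_le_inv₀ (mul_pos h2 h1)).2 (mul_le_one₀ h2' h1.le h1'), ?_⟩
  intro e z D η r' r'' R hη hz hU h6 hrr hrR hrE F hF0 hF
  obtain ⟨m, rfl⟩ : ∃ m : ℕ, r' = m := ⟨r'.toNat, by omega⟩
  obtain ⟨M, rfl⟩ : ∃ M : ℕ, r'' = M := ⟨r''.toNat, by omega⟩
  obtain ⟨i, hi⟩ : ∃ i : ℕ, i = m / 2 := ⟨_, rfl⟩
  have hmM : m ≤ M := by omega
  have hm6 : 6 ≤ m := by omega
  have hi4 : m ≤ 4 * (i - 1) := by omega
  have hpr := pr_not e
  have hpe := pr_or e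
  -- the tubes
  have g1 := (hA e (z.1 - m) (z.1 - i) (z.1 + i) (z.1 + m) z.2 z.2 (z.2 + i) (z.2 + m)
    (by omega) (by omega) (by omega) (by omega) (by omega) (by omega)
    (by push_cast; omega) (by push_cast; omega) (by push_cast; omega)).1
  have g2 := (hR e (z.1 + 1) (z.1 + i) z.2 (z.2 + M) (by omega) (by omega)).2 (by
    have e1 : ((8 * E : ℕ) : ℤ) * (z.1 + i - (z.1 + 1)) = 2 * E * (4 * ((i : ℤ) - 1)) := by
      push_cast
      ring
    rw [e1]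
    have e2 : (2 * E * m : ℤ) ≤ 2 * E * (4 * ((i : ℤ) - 1)) :=
      mul_le_mul_of_nonneg_left (by omega) (by positivity)
    omega)
  have hHD : HBx z m ⊆ D := by
    rw [← hU.inter (by omega)]
    exact inter_subset_left
  have hTD : Rsq (z.1 + 1) (z.1 + i) z.2 (z.2 + M) ⊆ D := by
    intro v hv
    rw [mem_Rsq] at hv
    refine (hU v ?_).2 (by omega)
    rw [mBq]
    omega
  have hT1 : arch (z.1 - m) (z.1 - i) (z.1 + i) (z.1 + m) z.2 z.2 (z.2 + i) (z.2 + m) ⊆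
      HBx z m := by
    intro v hv
    rw [mem_arch] at hv
    rw [mem_HBx]
    omega
  have key := ext_flat (F := F) (D := D) (η := η) hQ hQ1 hη (m := m) (i := i) (z := z) (e := e)
    (T₁ := arch (z.1 - m) (z.1 - i) (z.1 + i) (z.1 + m) z.2 z.2 (z.2 + i) (z.2 + m))
    (A₁ := Hs e z.2 (z.1 - m) (z.1 - i))
    (T := Rsq (z.1 + 1) (z.1 + i) z.2 (z.2 + M))
    (A := Hs e z.2 (z.1 + 1) (z.1 + i)) (B := Hs e (z.2 + M) (z.1 + 1) (z.1 + i))
    (by omega) hz (by omega) (by omega) hHD hT1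
    (fun x hx => ⟨hx.1, hx.2.1, by have := hx.2.2.1; omega, hx.2.2.2⟩) hTD subset_rfl
    (bd_bot fun t ht => (mem_Rsq.1 ht).2.2.1)
    (fun t ht h => by have := mem_Rsq.1 ht; omega)
    (bd_top fun t ht => (mem_Rsq.1 ht).2.2.2)
    (fun b hb hbV => by
      obtain ⟨b1, b2, b3, b4⟩ := hb
      obtain ⟨x, hx, c1, c2, c3⟩ := hbV
      have := mem_HBx.1 (mem_coe.1 hx)
      omega) hF0
    (fun ω ω' h => (hF ω ω' fun v hv => (h v (fun h3 => ?_) (fun h3 => ?_)).symm).symm)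
  · rw [hU.arm (by omega) (by omega) hz]
    simp only [mul_comm _ (F _)]
    have hE0 := Ex_nonneg (D := D) (η := η) hQ (F := fun ω => F ω *
      (Jn e ↑(HBx z m) {z} (SO e z m)).indicator 1 ω) fun _ _ => mul_nonneg (hF0 _)
        (Set.indicator_nonneg (fun _ _ => zero_le_one) _)
    have k1 : κ₂ * κ₁ * Ex Q D η (fun ω => F ω *
        (Jn e ↑(HBx z m) {z} (SO e z m)).indicator 1 ω) ≤
          Ex Q D η (fun ω => F ω * (Arm e D z M).indicator 1 ω) := by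
      refine (mul_le_mul_of_nonneg_right (mul_le_mul g2 g1 h1.le (VT_nonneg hQ _ _ _ _))
        hE0).trans (key.trans (Ex_mono hQ fun S _ => ind_mono hF0 ?_ _))
      rw [hU.arm (by omega) (by omega) hz]
      refine Jn.mono ?_ subset_rfl ?_
      · rintro v (hv | hv)
        · rw [mem_coe, mem_HBx] at hv ⊢
          omega
        · rw [mem_coe, mem_Rsq] at hv
          rw [mem_coe, mem_HBx]
          omega
      · rintro x ⟨x1, x2, x3, x4⟩
        exact ⟨by omega, by omega, by omega, by omega, by omega, x4⟩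
    rw [inv_mul_eq_div, le_div_iff₀ (mul_pos h2 h1), mul_comm]
    exact k1
  · refine hv ⟨hHD (hT1 h3), ?_⟩
    have := mem_HBx.1 (hT1 h3)
    show v ∈ Bq z M
    rw [mBq]
    omega
  · refine hv ⟨hTD h3, ?_⟩
    have := mem_Rsq.1 h3
    show v ∈ Bq z M
    rw [mBq]
    omega

/-! ### The four directions -/

variable {T : Tr}

theorem pstep_T (ho : T.o = false) {X : Set Pt} {u v : Pt} :
    PStep X (T.S u) (T.S v) ↔ PStep {x | T.Q x ∈ X} u v := by
  have hpu := N.QL.par_T ho u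
  have hpv := N.QL.par_T ho v
  have hco := fun w z => T.co w z
  unfold H760.Co at hco
  rw [H640.ND.pstep_iff, H640.ND.pstep_iff]
  unfold H135.Cor
  constructor
  · rintro ⟨w, h1, h2, h3, h4, h5⟩
    obtain ⟨w, rfl⟩ := T.Q.surjective w
    refine ⟨w, h1, (hco w u).1 h2, (hco w v).1 h3, fun h => h4 (by rw [h]), ?_⟩
    rw [← hpu, ← hpv]
    exact h5
  · rintro ⟨w, h1, h2, h3, h4, h5⟩
    refine ⟨T.Q w, h1, (hco w u).2 h2, (hco w v).2 h3, fun h => h4 (T.S.injective h), ?_⟩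
    rw [hpu, hpv]
    exact h5

theorem pw_T (ho : T.o = false) {X : Set Pt} {u v : Pt} :
    Pw X (T.S u) (T.S v) ↔ Pw {x | T.Q x ∈ X} u v := by
  constructor
  · intro h
    obtain ⟨w, hw⟩ : ∃ w, w = T.S v := ⟨_, rfl⟩
    have key : ∀ w, Pw X (T.S u) w → Pw {x | T.Q x ∈ X} u (T.S.symm w) := by
      intro w hw
      induction hw with
      | refl =>
        rw [Equiv.symm_apply_apply]
      | @tail b c _ h2 ih =>
        refine ih.tail ((pstep_T ho).1 ?_)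
        rw [Equiv.apply_symm_apply, Equiv.apply_symm_apply]
        exact h2
    have := key _ h
    rwa [Equiv.symm_apply_apply] at this
  · intro h
    induction h with
    | refl => exact ReflTransGen.refl
    | tail _ h2 ih => exact ih.tail ((pstep_T ho).2 h2)

/-- Arms in the frame. -/
theorem arm_T (ho : T.o = false) (ω : Cfg) :
    ω ∈ Arm e (T.pre D) z r ↔ T.C ω ∈ Arm e D (T.S z) r := by
  have e1 : {x | T.Q x ∈ cs e (T.C ω) ∩ (↑(D ∩ Bq (T.S z) r) : Set Pt)} =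
      cs e ω ∩ ↑(T.pre D ∩ Bq z r) := by
    ext x
    rw [Set.mem_ofPred_eq, Set.mem_inter_iff, Set.mem_inter_iff, mem_coe, mem_coe, mem_inter,
      mem_inter, T.mem_pre, N.QL.bq_T]
    refine and_congr_left fun _ => ?_
    show T.C ω (T.Q x) = e ↔ ω x = e
    rw [T.C_apply, ho]
    rfl
  refine not_congr ⟨fun h s v h1 h2 => ?_, fun h s v h1 h2 => ?_⟩
  · obtain ⟨s, rfl⟩ := T.S.surjective s
    obtain ⟨v, rfl⟩ := T.Q.surjective v
    rw [N.QL.bq_T]
    rw [pw_T ho, e1] at h1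
    refine h s v h1 ?_
    rw [isC_cor] at h2 ⊢
    exact (T.co v s).1 h2
  · rw [← N.QL.bq_T T]
    refine h (T.S s) (T.Q v) ?_ ?_
    · rw [pw_T ho, e1]
      exact h1
    · rw [isC_cor] at h2 ⊢
      exact (T.co v s).2 h2

theorem arm_ind_T (ho : T.o = false) (ω : Cfg) :
    (Arm e D (T.S z) r).indicator (1 : Cfg → ℝ) (T.C ω) = (Arm e (T.pre D) z r).indicator 1 ω := by
  by_cases h : ω ∈ Arm e (T.pre D) z r
  · rw [Set.indicator_of_mem h, Set.indicator_of_mem ((arm_T ho ω).1 h)]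
    rfl
  · rw [Set.indicator_of_notMem h, Set.indicator_of_notMem fun h' => h ((arm_T ho ω).2 h')]

/-- The boundary is flat in the box around `z`, in one of the four directions. -/
def FlT (D : Finset Pt) (z : Pt) (R : ℤ) : Prop :=
  ∃ (T : Tr) (z₀ : Pt), T.o = false ∧ T.S z₀ = z ∧ Up (T.pre D) z₀ R

theorem par_pr (ho : T.o = false) : ((T.S z).1 + (T.S z).2) % 2 = pr e ↔ (z.1 + z.2) % 2 = pr e := by
  have h := N.QL.par_T ho z
  rw [Int.even_iff, Int.even_iff] at h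
  have := pr_or e
  omega

/-- **Extension in the radius**, any direction. -/
theorem ext_flT (hQ : 0 < Q) (hQ1 : Q ≤ 1) (hV : VRS Q) (E : ℕ) : ∃ C : ℝ, 1 ≤ C ∧
    ∀ {e : Bool} {z : Pt} {D : Finset Pt} {η : Cfg} {r' r'' R : ℤ}, Good η →
      (z.1 + z.2) % 2 = pr e → FlT D z R → 6 ≤ r' → r' ≤ r'' → r'' ≤ R → r'' ≤ 2 * E * r' →
      ∀ F : Cfg → ℝ, (∀ ω, 0 ≤ F ω) → Off D (· ∈ Bq z r'') F →
        Ex Q D η (fun ω => (Arm e D z r').indicator 1 ω * F ω) ≤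
          C * Ex Q D η (fun ω => (Arm e D z r'').indicator 1 ω * F ω) := by
  obtain ⟨C, hC, h⟩ := ext_up hQ hQ1 hV E
  refine ⟨C, hC, ?_⟩
  rintro e z D η r' r'' R hη hz ⟨T, z, ho, rfl, hU⟩ h6 h1 h2 h3 F hF0 hF
  have hη' : Good (T.Ci η) := T.good_T' (by rw [T.C_Ci]; exact hη)
  have key := h hη' ((par_pr ho).1 hz) hU h6 h1 h2 h3 (fun ω => F (T.C ω)) (fun ω => hF0 _)
    fun ω ω' hω => hF _ _ fun v hv => by
      obtain ⟨v, rfl⟩ := T.Q.surjective v
      rw [T.C_apply, T.C_apply, hω v fun h4 => hv ⟨T.mem_pre.1 h4.1, (N.QL.bq_T T).2 h4.2⟩]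
  rw [← T.Ex_pre Q D η, ← T.Ex_pre Q D η]
  simp only [arm_ind_T ho]
  exact key

/-- **`ExtI` for the arms of the flat boundary sites.** -/
theorem extI_flat (hQ : 0 < Q) (hQ1 : Q ≤ 1) (hV : VRS Q) (E : ℕ) : ∃ C : ℝ, 1 ≤ C ∧
    ∀ {e : Bool} {z : Pt} {D : Finset Pt} {η : Cfg} {R : ℤ}, Good η →
      (z.1 + z.2) % 2 = pr e → FlT D z R →
      ExtI Q D η (fun r ω => (Arm e D z r).indicator 1 ω) {z} 1 E 6 C R := by
  obtain ⟨C, hC, h⟩ := ext_flT hQ hQ1 hV E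
  refine ⟨C, hC, fun {e z D η R} hη hz hF => ⟨le_rfl, fun r' ω _ _ =>
    Set.indicator_nonneg (fun _ _ => zero_le_one) ω, fun r' r'' ω _ h2 _ =>
      Set.indicator_le_indicator_of_subset (arm_anti h2) (fun _ => zero_le_one) ω,
    fun r' _ _ ω ω' hω => arm_loc ω ω' fun v hv => hω v ?_,
    fun r' r'' h1 _ h3 h4 h5 F hF0 hFo => h hη hz hF h1 h3 h4 h5 F hF0 fun ω ω' hω =>
      hFo ω ω' fun v hv => hω v fun h6 => hv ⟨h6.1, z, mem_singleton_self z, ?_⟩⟩⟩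
  · rw [singleton_biUnion]
    exact (mem_inter.1 hv).2
  · rw [one_mul]
    exact H601.LG.nm_of_Bq h6.2

end Vale.Agent.P167.H433
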