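import Vale.Agent.P167.N.NET.Rect
import Vale.Agent.P167.N.NET.QuadP
import Vale.Agent.P167.H718.Rect
import Vale.Agent.P167.H718.Par3

/-!
# P167, `0 < q < 1`: a flat boundary site, the half box and its two dualities

`HBx z m`: the squares of the half box `[z.1 - m, z.1 + m] × [z.2, z.2 + m]`. `quad0`: the site `z`, the
outer sides, the two halves of the flat side. `quad1`: the site `z`, the outer part of the right half
of the flat side, its inner part, the rest.
-/

set_option autoImplicit false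

namespace Vale.Agent.P167.H433

open Finset Vale.Agent.P167 Vale.Agent.P167.FK Vale.Agent.P167.H871 Vale.Agent.P167.H632
  Vale.Agent.P167.H192.TA Vale.Agent.P167.N.NET Vale.Agent.P167.H718
open Vale.Agent.P145.FB (PStep PConn)
open Vale.Agent.P167.E6 (IsPolygon Encloses dir face)
open Relation (ReflTransGen)

variable {z : Pt} {m : ℕ} {e : Bool}

/-- The squares of the half box above `z`. -/
noncomputable def HBx (z : Pt) (m : ℕ) : Finset Pt := (Rt (2 * m) m).image (· + (z.1 - m, z.2))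

theorem mem_HBx {v : Pt} : v ∈ HBx z m ↔ z.1 - m ≤ v.1 ∧ v.1 < z.1 + m ∧ z.2 ≤ v.2 ∧
    v.2 < z.2 + m := by
  unfold HBx
  rw [mem_image]
  constructor
  · rintro ⟨u, hu, rfl⟩
    rw [mem_Rt] at hu
    push_cast at hu
    simp only [Prod.fst_add, Prod.snd_add]
    omega
  · intro h
    refine ⟨(v.1 - z.1 + m, v.2 - z.2), ?_, ?_⟩
    · rw [mem_Rt]
      push_cast
      omega
    · show ((v.1 - z.1 + m, v.2 - z.2) : ℤ × ℤ) + (z.1 - m, z.2) = v
      exact Prod.ext (by simp only [Prod.fst_add]; omega) (by simp only [Prod.snd_add]; omega)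

theorem HBx_rsq : HBx z m = H262.Rsq (z.1 - m) (z.1 + m) z.2 (z.2 + m) := by
  ext v
  rw [mem_HBx, H262.mem_Rsq]

/-- The boundary of the half box, from `z`, counterclockwise. -/
def qz (z : Pt) (m : ℕ) (i : ZMod (2 * (2 * m) + 2 * m)) : Pt := rq (2 * m) m (2 * m) i + (z.1 - m, z.2)

theorem qz_poly (hm : 1 ≤ m) : IsPolygon (qz z m) := poly_add (rq_poly (by omega) hm _) _

theorem qz_encl (hm : 1 ≤ m) : Encloses (qz z m) (HBx z m) := encl_add (rq_encl (by omega) hm _) _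

/-- The sites of the boundary. -/
def qs (z : Pt) (m k : ℕ) : Pt :=
  if k ≤ m then (z.1 + k, z.2) else if k ≤ 2 * m then (z.1 + m, z.2 + k - m)
    else if k ≤ 4 * m then (z.1 + 3 * m - k, z.2 + m) else if k ≤ 5 * m then
      (z.1 - m, z.2 + 5 * m - k) else (z.1 + k - 6 * m, z.2)

theorem qz_nat (hm : 1 ≤ m) {k : ℕ} (hk : k ≤ 6 * m) :
    qz z m (k : ZMod (2 * (2 * m) + 2 * m)) = qs z m k := by
  unfold qz
  rw [rq_nat]
  by_cases h : k + 2 * m < 6 * m
  · rw [RP_lt (by omega)]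
    unfold H718.rf qs
    split_ifs <;> first
      | omega
      | (refine Prod.ext ?_ ?_ <;> simp only [Prod.fst_add, Prod.snd_add] <;> push_cast <;> omega)
  · obtain ⟨j, hj⟩ : ∃ j, k + 2 * m = (2 * (2 * m) + 2 * m) * 1 + j := ⟨k + 2 * m - 6 * m, by omega⟩
    rw [hj, RP_eq (by omega)]
    unfold H718.rf qs
    split_ifs <;> first
      | omega
      | (refine Prod.ext ?_ ?_ <;> simp only [Prod.fst_add, Prod.snd_add] <;> omega)

theorem mem_arc (hm : 1 ≤ m) {x : Pt} {i j : ℕ} (hj : j ≤ 6 * m) :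
    x ∈ arcQ e (qz z m) i j ↔ ∃ k, i ≤ k ∧ k ≤ j ∧ x = qs z m k ∧ (x.1 + x.2) % 2 = pr e := by
  constructor
  · rintro ⟨k, h1, h2, h3, h4⟩
    exact ⟨k, h1, h2, by rw [h3, qz_nat hm (by omega)], h4⟩
  · rintro ⟨k, h1, h2, h3, h4⟩
    exact ⟨k, h1, h2, by rw [qz_nat hm (by omega)]; exact h3, h4⟩

/-- The sites of the colour `e` of the outer sides. -/
def SO (e : Bool) (z : Pt) (m : ℕ) : Set Pt :=
  {x | z.1 - m ≤ x.1 ∧ x.1 ≤ z.1 + m ∧ z.2 ≤ x.2 ∧ x.2 ≤ z.2 + m ∧
    (x.1 = z.1 - m ∨ x.1 = z.1 + m ∨ x.2 = z.2 + m) ∧ (x.1 + x.2) % 2 = pr e}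

theorem arc_right (hm : 1 ≤ m) {i j : ℕ} (hj : j ≤ m) :
    arcQ e (qz z m) i j = Hs e z.2 (z.1 + i) (z.1 + j) := by
  ext x
  rw [mem_arc hm (by omega)]
  constructor
  · rintro ⟨k, h1, h2, h3, h4⟩
    unfold qs at h3
    rw [if_pos (by omega)] at h3
    rw [Prod.ext_iff] at h3
    simp only at h3
    exact ⟨h3.2, by omega, by omega, h4⟩
  · rintro ⟨h1, h2, h3, h4⟩
    refine ⟨(x.1 - z.1).toNat, by omega, by omega, ?_, h4⟩
    unfold qs
    rw [if_pos (by omega)]
    exact Prod.ext (by simp only; omega) (by simp only; omega)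

theorem arc_left (hm : 1 ≤ m) : arcQ e (qz z m) (5 * m) (6 * m) = Hs e z.2 (z.1 - m) z.1 := by
  ext x
  rw [mem_arc hm le_rfl]
  constructor
  · rintro ⟨k, h1, h2, h3, h4⟩
    unfold qs at h3
    split_ifs at h3 <;> rw [Prod.ext_iff] at h3 <;> simp only at h3 <;>
      exact ⟨by omega, by omega, by omega, h4⟩
  · rintro ⟨h1, h2, h3, h4⟩
    refine ⟨(x.1 - z.1 + 6 * m).toNat, by omega, by omega, ?_, h4⟩
    unfold qs
    split_ifs <;> first
      | omega
      | exact Prod.ext (by simp only; omega) (by simp only; omega)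

theorem arc_out (hm : 1 ≤ m) : arcQ e (qz z m) m (5 * m) = SO e z m := by
  ext x
  rw [mem_arc hm (by omega)]
  constructor
  · rintro ⟨k, h1, h2, h3, h4⟩
    unfold qs at h3
    split_ifs at h3 <;> rw [Prod.ext_iff] at h3 <;> simp only at h3 <;>
      exact ⟨by omega, by omega, by omega, by omega, by omega, h4⟩
  · rintro ⟨h1, h2, h3, h4, h5, h6⟩
    by_cases c1 : x.1 = z.1 + m
    · refine ⟨(x.2 - z.2 + m).toNat, by omega, by omega, ?_, h6⟩
      unfold qs
      split_ifs <;> first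
        | omega
        | exact Prod.ext (by simp only; omega) (by simp only; omega)
    by_cases c2 : x.2 = z.2 + m
    · refine ⟨(3 * m - (x.1 - z.1)).toNat, by omega, by omega, ?_, h6⟩
      unfold qs
      split_ifs <;> first
        | omega
        | exact Prod.ext (by simp only; omega) (by simp only; omega)
    · refine ⟨(5 * m - (x.2 - z.2)).toNat, by omega, by omega, ?_, h6⟩
      unfold qs
      split_ifs <;> first
        | omega
        | exact Prod.ext (by simp only; omega) (by simp only; omega)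

theorem arc_rest (hm : 1 ≤ m) :
    arcQ e (qz z m) m (6 * m) = SO e z m ∪ Hs e z.2 (z.1 - m) z.1 := by
  rw [← arc_out hm, ← arc_left hm]
  ext x
  constructor
  · rintro ⟨k, h1, h2, h3, h4⟩
    by_cases h : k ≤ 5 * m
    · exact Or.inl ⟨k, h1, h, h3, h4⟩
    · exact Or.inr ⟨k, by omega, h2, h3, h4⟩
  · rintro (⟨k, h1, h2, h3, h4⟩ | ⟨k, h1, h2, h3, h4⟩)
    · exact ⟨k, h1, by omega, h3, h4⟩
    · exact ⟨k, by omega, h2, h3, h4⟩

theorem arc_z (hm : 1 ≤ m) (hz : (z.1 + z.2) % 2 = pr e) : arcQ e (qz z m) 0 0 = {z} := by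
  rw [arc_right hm (by omega)]
  ext x
  constructor
  · rintro ⟨h1, h2, h3, h4⟩
    exact Prod.ext (by omega) h1
  · rintro rfl
    exact ⟨rfl, by omega, by omega, hz⟩

theorem quad0 (hm : 1 ≤ m) (hz : (z.1 + z.2) % 2 = pr e) :
    Quad e ↑(HBx z m) {z} (SO e z m) (Hs (!e) z.2 z.1 (z.1 + m)) (Hs (!e) z.2 (z.1 - m) z.1) := by
  have h := quad_poly (qz_poly (z := z) hm) (qz_encl hm) e (i := 0) (j := 0) (k := m) (l := 5 * m)
    le_rfl (Nat.zero_le _) (by omega) (by omega)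
  rw [arc_z hm hz, arc_out hm, arc_right hm le_rfl, show 0 + (2 * (2 * m) + 2 * m) = 6 * m by ring,
    arc_left hm] at h
  simpa using h

theorem quad1 (hm : 1 ≤ m) (hz : (z.1 + z.2) % 2 = pr e) {i : ℕ} (hi : i ≤ m) :
    Quad e ↑(HBx z m) {z} (Hs e z.2 (z.1 + i) (z.1 + m)) (Hs (!e) z.2 z.1 (z.1 + i))
      (SO (!e) z m ∪ Hs (!e) z.2 (z.1 - m) z.1) := by
  have h := quad_poly (qz_poly (z := z) hm) (qz_encl hm) e (i := 0) (j := 0) (k := i) (l := m)
    le_rfl (Nat.zero_le _) hi (by omega)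
  rw [arc_z hm hz, arc_right hm le_rfl, arc_right hm hi, show 0 + (2 * (2 * m) + 2 * m) = 6 * m by ring,
    arc_rest hm] at h
  simpa using h

theorem fan_HBx (e : Bool) : Fan e ↑(HBx z m) := by
  rw [HBx_rsq]
  exact fan_rect _ _ _ _ _

end Vale.Agent.P167.H433
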