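import Vale.Agent.P167.H433.PsPn
import Vale.Agent.P167.N.ID.ArmDef
import Vale.Agent.P167.N.H945.Q.HLift
import Vale.Agent.P167.H398.Q.Fac

/-!
# P167, `0 < q < 1`, (P2S): the arm off a row, continued along a chain of rectangles

* `pn_az`: `pn` for the arm off the row; a weight, nonnegative, which does not read the squares.
* `ef_lift`: from the finite domains to the law.
-/

set_option autoImplicit false

namespace Vale.Agent.P167.H433

open Finset MeasureTheory Vale.Agent.P167 Vale.Agent.P167.FK Vale.Agent.P167.FKA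
  Vale.Agent.P167.H871 Vale.Agent.P167.H632 Vale.Agent.P167.H192.TA Vale.Agent.P167.N.NET
open Vale.Agent.P145.FB (PStep PConn)
open Relation (ReflTransGen)
open Vale.Agent.P167.N (Crs Kit)
open Vale.Agent.P167.N.BAR (Sd sq Mt Ch lst)
open Vale.Agent.P167.N.QL (NoArm)
open Vale.Agent.P167.N.ID (AZ isC_of_far far_of_isC step_isC)
open Vale.Agent.P167.H506.Q (EF fz LF EF_mono EF_mul_left)
open Vale.Agent.P167.H519 (IsLim)
open Vale.Agent.P167.QX (QL)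

variable {Q : ℝ} {z t : Pt} {e : Bool} {D A U T T' : Finset Pt} {η ω σ : Cfg} {F : Cfg → ℝ}
  {r : Fin 4} {a b p q u v s R : ℤ} {m κ : ℕ} {X Y : Crs} {L G : List Crs} {j : Bool}

theorem bq_rT {v : Pt} : (rT r z).Q v ∈ Bq z R ↔ v ∈ Bq z R := by
  have h := N.QL.bq_T (rT r z) (c := z) (v := v) (R := R)
  rwa [rT_z] at h

/-- The arm off the row stays on the outer side. -/
theorem az_arm (hU : ∀ v ∈ LQ r z (-m) m (-1) 0, v ∈ U) :
    AZ e U z m ⊆ Arm e (LQ r z (-m) m 0 m) z m := by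
  rintro ω ⟨s, hs, h⟩ hN
  have key : Pw (cs e ω ∩ ↑(LQ r z (-m) m 0 m ∩ Bq z m)) z s := by
    obtain ⟨s, rfl⟩ := (rT r z).S.surjective s
    rw [← rT_z (r := r) (z := z), rT_z] at h
    have h1 : Pw (cs e ω ∩ ↑(Bq z m \ U)) ((rT r z).S z) ((rT r z).S s) := by
      rw [rT_z]
      exact h
    have h2 : Pw (cs e ω ∩ ↑(LQ r z (-m) m 0 m ∩ Bq z m)) ((rT r z).S z) ((rT r z).S s) := by
      rw [pw_T rT_o] at h1 ⊢
      have k : ∀ w, Pw {x | (rT r z).Q x ∈ cs e ω ∩ (↑(Bq z m \ U) : Set Pt)} z w → z.2 ≤ w.2 ∧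
          Pw {x | (rT r z).Q x ∈ cs e ω ∩ (↑(LQ r z (-m) m 0 m ∩ Bq z m) : Set Pt)} z w := by
        intro w hw
        induction hw with
        | refl => exact ⟨le_rfl, ReflTransGen.refl⟩
        | @tail x y _ hxy ih =>
          obtain ⟨i1, i2⟩ := ih
          obtain ⟨s1, s2, s3, s4⟩ := hxy
          rw [mem_coe, mem_sdiff] at s4
          have hb : (min x.1 y.1, min x.2 y.2) ∈ Bq z m := by
            exact bq_rT.1 s4.1
          have hb' := mBq.1 hb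
          have h3 : z.2 ≤ min x.2 y.2 := by
            by_contra hc
            refine s4.2 (hU _ ?_)
            rw [rT_LQ, H262.mem_Rsq]
            dsimp only at hb' hc ⊢
            omega
          dsimp only at hb'
          refine ⟨by omega, i2.tail ⟨s1, s2, s3, ?_⟩⟩
          rw [mem_coe, mem_inter]
          refine ⟨?_, s4.1⟩
          rw [rT_LQ, H262.mem_Rsq]
          dsimp only
          omega
      exact (k s h1).2
    rw [rT_z] at h2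
    exact h2
  obtain ⟨v, hv, hvs⟩ := isC_of_far hs
  exact hv (hN s v key hvs)

/-- A path to a far site gives an arm. -/
theorem az_of_path (h : Pw (cs e ω ∩ {w | w ∉ U}) z t) (ht : R ≤ nm (t - z)) :
    ω ∈ AZ e U z R := by
  have hE : ∀ {x}, Pw ((cs e ω ∩ {w | w ∉ U}) ∩ (Bq z R : Set Pt)) z x →
      Pw (cs e ω ∩ ↑(Bq z R \ U)) z x := fun {x} h => by
    refine Pw.mono ?_ h
    rintro v ⟨⟨h1, h2⟩, h3⟩
    exact ⟨h1, mem_coe.2 (mem_sdiff.2 ⟨mem_coe.1 h3, h2⟩)⟩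
  have key : ∀ x, Pw (cs e ω ∩ {w | w ∉ U}) z x →
      (∃ s', R ≤ nm (s' - z) ∧ Pw ((cs e ω ∩ {w | w ∉ U}) ∩ (Bq z R : Set Pt)) z s') ∨
        Pw ((cs e ω ∩ {w | w ∉ U}) ∩ (Bq z R : Set Pt)) z x := by
    intro x hx
    induction hx with
    | refl => exact Or.inr ReflTransGen.refl
    | @tail a b _ hab ih =>
      rcases ih with h1 | h1
      · exact Or.inl h1
      · obtain ⟨h2, h3, h4⟩ := step_isC hab
        by_cases h5 : (min a.1 b.1, min a.2 b.2) ∈ Bq z R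
        · exact Or.inr (h1.tail ⟨hab.1, hab.2.1, h2, h5⟩)
        · exact Or.inl ⟨a, far_of_isC h5 h3, h1⟩
  rcases key t h with ⟨s', h1, h2⟩ | h1
  · exact ⟨s', h1, hE h2⟩
  · exact ⟨t, ht, hE h1⟩

theorem pe_loc (hT : T ⊆ T') (hG : ∀ Y ∈ G, sq Y ⊆ (↑T' : Set Pt)) :
    Loc T' ((PE e z T Y j G).indicator (1 : Cfg → ℝ)) := by
  have key : ∀ ω ω' : Cfg, (∀ v ∈ T', ω v = ω' v) → ω ∈ PE e z T Y j G → ω' ∈ PE e z T Y j G := by
    rintro ω ω' h ⟨⟨t, h1, h2⟩, h3⟩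
    refine ⟨⟨t, h1, Pw.mono ?_ h2⟩, fun Y hY => ev_congr (fun v hv => h v (mem_coe.1 (hG Y hY hv)))
      (h3 Y hY)⟩
    rintro v ⟨h4, h5⟩
    refine ⟨?_, h5⟩
    show ω' v = e
    rw [← h v (hT (mem_coe.1 h5))]
    exact h4
  intro ω ω' h
  by_cases h1 : ω ∈ PE e z T Y j G
  · rw [Set.indicator_of_mem h1, Set.indicator_of_mem (key ω ω' h h1)]
    rfl
  · rw [Set.indicator_of_notMem h1,
      Set.indicator_of_notMem fun h2 => h1 (key ω' ω (fun v hv => (h v hv).symm) h2)]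

/-- Rectangles of a smaller width. -/
theorem ok_s {s' : ℤ} {κ' : ℕ} (h : X.Ok s κ A) (hs : s' ≤ s) (hκ : κ * s ≤ κ' * s') :
    X.Ok s' κ' A := by
  obtain ⟨h1, h2, h3, h4⟩ := h
  refine ⟨h1, h2, ?_, h4⟩
  split_ifs at h3 ⊢ <;> omega

/-- **The arm off the row is continued along a chain.** -/
theorem pn_az {Q : ℝ} (K : Kit Q) (n₀ κ : ℕ) : ∃ (c : ℝ) (s0 : ℤ), 0 < c ∧ c ≤ 1 ∧ 1 ≤ s0 ∧
    ∀ {r : Fin 4} {e : Bool} {z : Pt} {m : ℕ} {s : ℤ} {A D U : Finset Pt} {η : Cfg} {W : Cfg → ℝ}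
      {X : Crs} {L G : List Crs} {j : Bool}, Good η → (z.1 + z.2) % 2 = pr e → s0 ≤ s → s ≤ m →
      4 * (m : ℤ) ≤ κ * s → (∀ v ∈ LQ r z (-m) m (-1) 0, v ∈ U) →
      LQ r z (-m) (4 * m) 0 (3 * m) ⊆ D → A ⊆ D →
      Disjoint A (LQ r z (-m) m 0 (3 * m)) → Mt (LR r z true 0 (4 * m) (2 * m) (3 * m)) X →
      Ch X L → L.length + 1 + G.length ≤ n₀ → (∀ Y ∈ X :: (L ++ G), Y.Ok s κ A) →
      (∀ ω, 0 ≤ W ω) → Ind (A ∪ LQ r z (-m) (4 * m) 0 (3 * m)) W →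
      c * Ex Q D η (fun ω => W ω * (AZ e U z m).indicator 1 ω) ≤
        Ex Q D η (fun ω => W ω * (PE e z (A ∪ LQ r z (-m) (4 * m) 0 (3 * m)) (lst X L) j
          G).indicator 1 ω) := by
  obtain ⟨c, s0, h1, h2, h3, h⟩ := pn K n₀ κ
  refine ⟨c, s0, h1, h2, h3, ?_⟩
  intro r e z m s A D U η W X L G j hη hz hs hsm hκ hU hLD hAD hdis hM hc hn hok hW0 hW
  refine le_trans (mul_le_mul_of_nonneg_left (Ex_mono K.pos fun S _ => ?_) h1.le)
    (h hη hz hs hsm hκ hLD hAD hdis hM hc hn hok hW0 hW)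
  exact mul_le_mul_of_nonneg_left
    (Set.indicator_le_indicator_of_subset (az_arm hU) (fun _ => zero_le_one) _) (hW0 _)

/-- **From finite domains to the law.** -/
theorem ef_lift {P : Measure Cfg} (K : Kit Q) (hP : IsLim Q P) (hg : ∀ᵐ ω ∂P, Good ω)
    (hDU : Disjoint D U) {T W V : Cfg → ℝ} {C M : ℝ} (hC : 0 ≤ C) (hT : LF T) (hW : LF W)
    (hV : QL V) (hVM : ∀ ω, Good ω → |V ω| ≤ M)
    (h : ∀ ζ, Good ζ → (∀ v ∈ U, ζ v = σ v) → Ex Q D ζ T ≤ C * Ex Q D ζ W)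
    (hWV : ∀ ω, Good ω → (∀ v ∈ U, ω v = σ v) → W ω ≤ V ω) :
    EF P U σ T ≤ C * EF P U σ V := by
  have hPp : IsProbabilityMeasure P := hP.1
  have h1 := Vale.Agent.P167.N.H945.Q.EF_lift (G := fun _ => (1 : ℝ)) (F1 := T) (F2 := W)
    (C := C) (σ := σ) K hP hg hDU (fun _ => zero_le_one) (fun _ _ _ => rfl)
    ⟨∅, fun _ _ _ => rfl⟩ hT hW h
  simp only [one_mul] at h1
  obtain ⟨B, hB⟩ := hW
  obtain ⟨M', hM'⟩ := Vale.Agent.P167.H506.Q.loc_bdd hB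
  exact h1.trans (mul_le_mul_of_nonneg_left
    (EF_mono hg (QL.of_loc hB) hV (fun ω _ => hM' ω) hVM hWV) hC)

end Vale.Agent.P167.H433
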