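import Vale.Agent.P167.H433.PsP
import Vale.Agent.P167.N.ID.PsCh
import Vale.Agent.P167.N.ID.PsFrD
import Vale.Agent.P167.N.ID.PsChX
import Vale.Agent.P167.N.ID.TOneZ

/-!
# P167, `0 < q < 1`, (P2S) for the Dobrushin frames

`two_az'`: two arms are continued along two chains. `p2s_D`: from the chains `ChD` and `ChX`.
-/

set_option autoImplicit false

namespace Vale.Agent.P167.H433

open Finset MeasureTheory Filter Vale.Agent.P167 Vale.Agent.P167.FK Vale.Agent.P167.FKA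
  Vale.Agent.P167.H871 Vale.Agent.P167.H632 Vale.Agent.P167.H192.TA Vale.Agent.P167.N.NET
open Vale.Agent.P167.N (Crs Kit Ang)
open Vale.Agent.P167.N.BAR (Sd sq Mt Ch lst)
open Vale.Agent.P167.N.ID
open Vale.Agent.P167.H825 (Box enl pdir)
open Vale.Agent.P167.H825.Q (Bc)
open Vale.Agent.P167.E6 (IsPolygon Encloses)
open Vale.Agent.P167.Enl (vp BGap)
open Vale.Agent.P167.H199 (mks)
open Vale.Agent.P167.H519 (IsLim)
open Vale.Agent.P167.QX (QL)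
open Vale.Agent.P167.H506.Q (LF)

variable {θ β g δ : ℝ} {l n : ℕ} {p : ZMod l → ℤ × ℤ} {S₀ : Finset (ℤ × ℤ)} {tp : ℝ}
  {b : Box} {ia : ℕ} {ta : ℝ} {r : Fin 4} {z : Pt} {R k : ℤ} {U E : Finset Pt}

/-- **Two arms are continued along two chains of rectangles**: first the outer one (with a ring), then
the inner one. -/
theorem two_az' {Q : ℝ} (K : Kit Q) (n₀ κ : ℕ) : ∃ (c : ℝ) (s0 : ℤ), 0 < c ∧ c ≤ 1 ∧ 1 ≤ s0 ∧
    ∀ {rA rQ : Fin 4} {eA eQ : Bool} {zA zQ : Pt} {m : ℕ} {s r₁ : ℤ} {AA AQ D U : Finset Pt}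
      {η : Cfg} {W : Cfg → ℝ} {XA XQ : Crs} {LA LB : List Crs} {jA jQ : Bool}, Good η →
      (zA.1 + zA.2) % 2 = pr eA → (zQ.1 + zQ.2) % 2 = pr eQ → s0 ≤ s → s ≤ m →
      4 * (m : ℤ) ≤ κ * s → s ≤ r₁ → 4 * r₁ ≤ κ * s → 4 * (m : ℤ) ≤ r₁ →
      (∀ v ∈ LQ rA zA (-m) m (-1) 0, v ∈ U) → LQ rA zA (-m) (4 * m) 0 (3 * m) ⊆ D → AA ⊆ D →
      Disjoint AA (LQ rA zA (-m) m 0 (3 * m)) → Mt (LR rA zA true 0 (4 * m) (2 * m) (3 * m)) XA →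
      Ch XA LA → LA.length + 1 ≤ n₀ → (∀ Y ∈ XA :: LA, Y.Ok s κ AA) →
      (∀ v ∈ LQ rQ zQ (-m) m (-1) 0, v ∈ U) → LQ rQ zQ (-m) (4 * m) 0 (3 * m) ⊆ D → AQ ⊆ D →
      rF zQ r₁ ⊆ D → Disjoint AQ (LQ rQ zQ (-m) m 0 (3 * m)) →
      Mt (LR rQ zQ true 0 (4 * m) (2 * m) (3 * m)) XQ → Ch XQ LB → LB.length + 1 ≤ n₀ →
      (∀ Y ∈ XQ :: LB, Y.Ok s κ AQ) →
      Disjoint (Bq zA m) ((AQ ∪ rF zQ r₁) ∪ LQ rQ zQ (-m) (4 * m) 0 (3 * m)) →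
      Disjoint ((AQ ∪ rF zQ r₁) ∪ LQ rQ zQ (-m) (4 * m) 0 (3 * m))
        (AA ∪ LQ rA zA (-m) (4 * m) 0 (3 * m)) →
      (∀ ω, 0 ≤ W ω) → Ind (AA ∪ LQ rA zA (-m) (4 * m) 0 (3 * m)) W →
      Ind ((AQ ∪ rF zQ r₁) ∪ LQ rQ zQ (-m) (4 * m) 0 (3 * m)) W →
      c * Ex Q D η (fun ω => W ω * (AZ eA U zA m).indicator 1 ω *
          (AZ eQ U zQ m).indicator 1 ω) ≤
        Ex Q D η (fun ω => W ω * (PE eQ zQ ((AQ ∪ rF zQ r₁) ∪ LQ rQ zQ (-m) (4 * m) 0 (3 * m))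
          (lst XQ LB) jQ (rg zQ r₁ (2 * r₁))).indicator 1 ω * (PE eA zA
            (AA ∪ LQ rA zA (-m) (4 * m) 0 (3 * m)) (lst XA LA) jA []).indicator 1 ω) := by
  obtain ⟨c₁, s₁, a1, a2, a3, hA⟩ := pn_az K n₀ κ
  obtain ⟨c₂, s₂, b1, b2, b3, hX⟩ := hook_X K n₀ κ
  refine ⟨c₁ * c₂, max s₁ s₂, mul_pos a1 b1, mul_le_one₀ a2 b1.le b2, by omega, ?_⟩
  intro rA rQ eA eQ zA zQ m s r₁ AA AQ D U η W XA XQ LA LB jA jQ hη hpA hpQ hs hsm hκ hs1 hκ1 hm1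
    hUA hLA hAD hdA hMA hcA hnA hokA hUQ hLQ hAQD hRD hdQ hMQ hcQ hnQ hokQ hd1 hd2 hW0 hWA hWQ
  have k1 := hX (r := rQ) (e := eQ) (z := zQ) (m := m) (s := s) (r₁ := r₁) (A := AQ) (D := D)
    (U := U) (η := η) (W := fun ω => W ω * (AZ eA U zA m).indicator 1 ω) (X := XQ) (L := LB)
    (j := jQ) hη hpQ ((le_max_right _ _).trans hs) hsm hκ hs1 hκ1 hm1 hUQ hLQ hAQD hRD hdQ hMQ
    hcQ hnQ hokQ (fun ω => mul_nonneg (hW0 ω) (ind_nonneg _ _))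
    (hWQ.mul (AZ_loc.ind (disjoint_of_subset_left sdiff_subset hd1)))
  have k2 := hA (r := rA) (e := eA) (z := zA) (m := m) (s := s) (A := AA) (D := D) (U := U)
    (η := η) (W := fun ω => W ω * (PE eQ zQ ((AQ ∪ rF zQ r₁) ∪
      LQ rQ zQ (-m) (4 * m) 0 (3 * m)) (lst XQ LB) jQ (rg zQ r₁ (2 * r₁))).indicator 1 ω)
    (X := XA) (L := LA) (G := [])
    (j := jA) hη hpA ((le_max_left _ _).trans hs) hsm hκ hUA hLA hAD hdA hMA hcA
    (by simpa using hnA) (by simpa using hokA) (fun ω => mul_nonneg (hW0 ω) (ind_nonneg _ _))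
    (hWA.mul ((pe_loc subset_rfl fun Y hY => (rg_sq Y hY).trans (coe_subset.2
      (subset_union_right.trans subset_union_left))).ind hd2))
  have e1 : (fun ω => W ω * (PE eQ zQ ((AQ ∪ rF zQ r₁) ∪
      LQ rQ zQ (-m) (4 * m) 0 (3 * m)) (lst XQ LB) jQ (rg zQ r₁ (2 * r₁))).indicator 1 ω *
        (AZ eA U zA m).indicator 1 ω) =
      fun ω => W ω * (AZ eA U zA m).indicator 1 ω * (PE eQ zQ ((AQ ∪ rF zQ r₁) ∪
      LQ rQ zQ (-m) (4 * m) 0 (3 * m)) (lst XQ LB) jQ (rg zQ r₁ (2 * r₁))).indicator 1 ω :=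
    funext fun ω => mul_right_comm _ _ _
  rw [e1] at k2
  rw [mul_assoc]
  exact (mul_le_mul_of_nonneg_left k1 a1.le).trans k2

section

variable [NeZero l]

theorem uD_box (H : DobN p S₀ b tp g δ n) {v : Pt}
    (hv : v ∈ (frD θ β p S₀ b tp ia ta).U (rowS θ) δ n) :
    (-1 ≤ v.1 ∧ v.1 ≤ bM p * n) ∧ -1 ≤ v.2 ∧ v.2 ≤ bM p * n := by
  obtain ⟨b1, b3, b5, b6, b7⟩ := H.basic
  rw [mem_UD] at hv
  rcases hv with h | h | h
  · obtain ⟨x, hx⟩ := DobN.frmP_row (tp := tp) h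
    have := H.rowP_mem hx
    omega
  · obtain ⟨x, hx⟩ := DobN.frmQ_row (tp := tp) h
    have := H.rowQ_mem' hx
    omega
  · have := H.spk_mem' (x := ()) h
    omega

omit [NeZero l] in
/-- The sites of the polygon are deep in the box. -/
theorem lc_deep (hp : IsPolygon p) (hN : Nrm p) {i σ : ℕ} (hσ : σ ≤ n) {z : Pt}
    (hz : z = lc (pdir p i) (vp p n i σ) 0 1) :
    (2 * n - 1 ≤ z.1 ∧ z.1 + 2 * n ≤ bM p * n + 1) ∧ 2 * n - 1 ≤ z.2 ∧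
      z.2 + 2 * n ≤ bM p * n + 1 := by
  have h1 := vp_mem (n := n) hp hN (i := i) hσ
  have h2 := lc_near (pdir p i) (vp p n i σ)
  rw [← hz, H632.nm_le] at h2
  simp only [Prod.fst_sub, Prod.snd_sub] at h2
  omega

theorem hB_mem {Φ : FrS Row} {v : Pt} : v ∈ Φ.hB δ n R ↔ ∃ x, v ∈ Bq (Φ.h δ n x) R := by
  unfold FrS.hB
  rw [mem_biUnion]
  exact ⟨fun ⟨x, _, h⟩ => ⟨x, h⟩, fun ⟨x, h⟩ => ⟨x, mem_univ _, h⟩⟩

theorem memFreD {G m : ℤ} {v : Pt} : v ∈ FreD θ β p S₀ b tp ia ta δ n G m ↔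
    (v ∈ Fre (frD θ β p S₀ b tp ia ta) θ S₀ δ n G (pdir p ia) (zA p n ia ta) m (bM p * n) ∧
      v ∉ Bq (zB p n tp) (m + 2)) ∧ (G ≤ v.1 ∧ v.1 + G ≤ bM p * n) ∧
        G ≤ v.2 ∧ v.2 + G ≤ bM p * n := by
  unfold FreD
  rw [Finset.mem_filter, Finset.mem_sdiff]

/-- The local squares of the junction. -/
theorem lqA_off (H : DobN p S₀ b tp g δ n) (hbg : BGap l (mks p b tp) g (.dob ia ta)) {m : ℤ}
    (hm : 1 ≤ m) (h1 : (4 * m : ℝ) ≤ g / 16 * n) (h2 : (16 * (m + 2) : ℝ) ≤ g / 16 * n)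
    (hδ : 64 * δ ≤ g) {v : Pt} (hv : v ∈ LQ (pdir p ia) (zA p n ia ta) (-m) (4 * m) 0 (3 * m)) :
    v ∈ offD θ β p S₀ b tp ia ta δ n ∧ v ∉ Bq (zB p n tp) m := by
  obtain ⟨b1, b3, b5, b6, b7⟩ := H.basic
  have hn0 : (0 : ℝ) ≤ n := Nat.cast_nonneg n
  have hF : Flat3 (pdir p ia) (zA p n ia ta) (4 * m)
      ((frD θ β p S₀ b tp ia ta).U (rowS θ) δ n) (enl S₀ n) := flat_zA H hbg (by push_cast; exact h1)
  obtain ⟨o1, o2⟩ := flat_out hF (by omega) le_rfl hv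
  have pA := lc_deep H.hp H.hN (σ := ⌊ta * n⌋₊) (i := ia)
    (Enl.dob_lt hbg.2.2.1 hbg.2.2.2.1 b5).le (z := zA p n ia ta) rfl
  have hvA := mBq.1 (lq_bq (k := 4 * m) (lq_sub (by omega) (by omega) (by omega) (by omega) hv))
  have hmn : 4 * m ≤ n := by
    have h3 : g / 16 * n ≤ n := mul_le_of_le_one_left hn0 (by linarith)
    have h4 : (4 * m : ℝ) ≤ n := h1.trans h3
    exact_mod_cast h4
  have hnm : nm (v - zA p n ia ta) ≤ 4 * m := by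
    rw [H632.nm_le]
    simp only [Prod.fst_sub, Prod.snd_sub]
    omega
  have hfar : ∀ {w : Pt} {ρ : ℤ}, (g / 16 * n ≤ (nm (zA p n ia ta - w) : ℝ)) →
      (4 * m + ρ : ℝ) < g / 16 * n → v ∉ Bq w ρ := by
    intro w ρ h3 h4 h5
    have h6 : nm (v - w) ≤ ρ := by
      have h7 := mBq.1 h5
      rw [H632.nm_le]
      simp only [Prod.fst_sub, Prod.snd_sub]
      omega
    have h7 : nm (zA p n ia ta - w) ≤ 4 * m + ρ := by
      rw [H632.nm_le] at *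
      simp only [Prod.fst_sub, Prod.snd_sub] at *
      omega
    have h8 : (nm (zA p n ia ta - w) : ℝ) ≤ 4 * m + ρ := by exact_mod_cast h7
    linarith
  refine ⟨⟨?_, o1, o2, fun h => ?_⟩, hfar (dist_zAB H hbg) (by linarith)⟩
  · rw [mem_boxE]
    push_cast
    omega
  · obtain ⟨x, hx⟩ := hB_mem.1 h
    refine hfar (farh_zA H hbg x) ?_ hx
    have h3 : (⌊δ * n⌋₊ : ℝ) ≤ δ * n := Nat.floor_le (by have := H.hδ; positivity)
    have h4 : 64 * δ * n ≤ g * n := mul_le_mul_of_nonneg_right hδ hn0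
    have h5 := H.hn
    push_cast
    linarith

/-- The squares of the region. -/
theorem freD_off {m G : ℤ} (hG : (⌊δ * n⌋₊ : ℤ) + 4 ≤ G) {v : Pt}
    (hv : v ∈ FreD θ β p S₀ b tp ia ta δ n G m) :
    v ∈ offD θ β p S₀ b tp ia ta δ n ∧ v ∉ Bq (zB p n tp) m := by
  rw [memFreD, memFre] at hv
  obtain ⟨⟨⟨⟨⟨⟨v1, v2⟩, v3⟩, v4⟩, v5⟩, v6⟩, v7, v8⟩ := hv
  have h0 : (0 : ℤ) ≤ ⌊δ * n⌋₊ := Int.natCast_nonneg _
  refine ⟨⟨?_, v2, v3, fun h => v4 ?_⟩, fun h => v6 (bq_sub (by omega) h)⟩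
  · rw [mem_boxE]
    push_cast
    omega
  · obtain ⟨x, hx⟩ := hB_mem.1 h
    exact hB_mem.2 ⟨x, bq_sub hG hx⟩

end

theorem bd4 {a b c d M : ℝ} (a0 : 0 ≤ a) (aM : |a| ≤ M) (b0 : 0 ≤ b) (b1 : b ≤ 1) (c0 : 0 ≤ c)
    (c1 : c ≤ 1) (d0 : 0 ≤ d) (d1 : d ≤ 1) : |a * b * c * d| ≤ M := by
  rw [abs_of_nonneg (mul_nonneg (mul_nonneg (mul_nonneg a0 b0) c0) d0)]
  have h := (le_abs_self _).trans aM
  exact (mul_le_of_le_one_right (mul_nonneg (mul_nonneg a0 b0) c0) d1).trans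
    ((mul_le_of_le_one_right (mul_nonneg a0 b0) c1).trans ((mul_le_of_le_one_right a0 b1).trans h))

/-- **(P2S) for the Dobrushin frames**, from the chains. -/
theorem p2s_D [NeZero l] (h1 : Ang θ) {P : Measure Cfg} (hP : IsLim (2 * Real.cos θ) P)
    (hβ : β = (θ - Real.pi) / 2) (hp : IsPolygon p) (hD : Encloses p S₀) (hN : Nrm p)
    (hb : b.Ok S₀) (h0 : 0 < tp) (ht1 : tp < 1)
    (ht : ∀ i : ℤ, ∀ y ∈ ({b.xl, b.xr, b.yb, b.yt} : Set ℝ), y ≠ i + tp ∧ y ≠ i - tp)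
    (hbk : (Bc.dob ia ta).Ok l (mks p b tp)) (hCA : ChD θ β p S₀ b tp ia ta)
    (hCX : ChX θ β p S₀ b tp ia ta) :
    (frD θ β p S₀ b tp ia ta).P2Sg (rowS θ) (rowF h1.cos_pos.le) {true} θ P := by
  have hg := Vale.Agent.P167.N.H199.good_aeQ h1.pos.le h1 hP h1.pos
  obtain ⟨g, hg0, hg1, hDN⟩ := dobN_of hp hD hN hb h0 ht1 ht hbk
  obtain ⟨κc, hκc, hCA⟩ := hCA
  obtain ⟨κx, hκx, hCX⟩ := hCX
  refine ⟨min (min κc κx) (g / 2000), by positivity, fun κ' hκ' hκ'1 => ?_⟩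
  have k1 : κ' < κc := hκ'1.trans_le ((min_le_left _ _).trans (min_le_left _ _))
  have k1' : κ' < κx := hκ'1.trans_le ((min_le_left _ _).trans (min_le_right _ _))
  have k2 : 2000 * κ' ≤ g := by
    have := hκ'1.trans_le (min_le_right _ _)
    linarith
  obtain ⟨NA, κA, εA, gA, δA, hεA, hgA, hδA, hCA⟩ := hCA κ' hκ' k1
  obtain ⟨NX, κX, εX, gX, R₀, δX, hεX, hgX, hδX, hCX⟩ := hCX κ' hκ' k1' (3 * (bM p + 3))
  obtain ⟨M, hM⟩ := exists_nat_ge (κA * εA + κX * εX + (bM p + 3))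
  obtain ⟨ε', κ₂, hε', hsc⟩ := scal hκ' (lt_min hεA hεX) 0 M hg0 k2
  obtain ⟨c, s0, hc0, hc1, hs0, hX⟩ := two_az' h1.kit (max NA NX) κ₂
  obtain ⟨n₀, hn₀⟩ := hsc s0
  obtain ⟨n₁, hn₁⟩ := exists_nat_ge (16 / gA)
  refine ⟨1 / c, min (min δA δX) (min (g / 64) (gA / 2)), 1, by positivity, by positivity,
    one_pos, fun δ hδ hδ' => ?_⟩
  have d1 : δ < δA := hδ'.trans_le ((min_le_left _ _).trans (min_le_left _ _))
  have d2 : δ < δX := hδ'.trans_le ((min_le_left _ _).trans (min_le_right _ _))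
  have d3 : 64 * δ ≤ g := by
    have := hδ'.trans_le ((min_le_right _ _).trans (min_le_left _ _))
    linarith
  have d4 : 2 * δ ≤ gA := by
    have := hδ'.trans_le ((min_le_right _ _).trans (min_le_right _ _))
    linarith
  filter_upwards [hCA δ hδ d1, hCX δ hδ d2, hDN g hg0 le_rfl δ hδ (by linarith),
    eventually_ge_atTop n₀, eventually_ge_atTop n₁] with n nA nX HH nn nn'
  obtain ⟨H, hbg⟩ := HH
  obtain ⟨n1, n2, n3, n4, n5, -, n7, n8, n9, n10, n11⟩ := hn₀ n nn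
  obtain ⟨b1, b3, b5, b6, b7⟩ := H.basic
  have hn0 : (0 : ℝ) ≤ n := Nat.cast_nonneg n
  intro σ hσ R₃ hR₃ _
  obtain ⟨XA, LA, jA, hMA, hcA, hlA, hokA, hsA⟩ := nA
  obtain ⟨XQ, LB, jQ, hMQ, hcQ, hlQ, hokQ, hsQ⟩ := nX
  obtain ⟨m, hm⟩ : ∃ m : ℕ, (m : ℤ) = ⌊4 * κ' * n⌋ := ⟨⌊4 * κ' * n⌋.toNat, by omega⟩
  rw [← hm] at n3 n7 n9 n10 n11 hMA hokA hMQ hokQ hsA ⊢
  obtain ⟨x, hx1, hx2, -, hTj⟩ := Tj_frD (θ := θ) (β := β) H hbg h1.cos_pos.le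
    (by have := h1.gt; linarith) h1.lt hβ
  obtain ⟨zA', hzA⟩ : ∃ z, z = zA p n ia ta := ⟨_, rfl⟩
  obtain ⟨zQ', hzQ⟩ : ∃ z, z = zBx p b n ia := ⟨_, rfl⟩
  obtain ⟨rA, hrA⟩ : ∃ r, r = pdir p ia := ⟨_, rfl⟩
  obtain ⟨rQ, hrQ⟩ : ∃ r, r = pdir pQ 0 := ⟨_, rfl⟩
  have hrQ2 : rQ = 2 := hrQ.trans pdir_pQ.1
  obtain ⟨U, hU⟩ : ∃ U, U = (frD θ β p S₀ b tp ia ta).U (rowS θ) δ n := ⟨_, rfl⟩
  obtain ⟨Tb, hTb⟩ : ∃ Tb : Cfg → ℝ, Tb = (rD θ β p b tp ia ta n ⌊δ * n⌋₊ x).T2 θ U m := ⟨_, rfl⟩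
  have hTb0 : ∀ ω, 0 ≤ Tb ω := fun ω => by
    rw [hTb]
    exact Row.T2_nonneg h1.cos_pos.le _ _ _ _
  have hTbl : Loc (Bq (zB p n tp) m) Tb := by
    rw [hTb, ← hx1]
    exact Row.T2_loc _ _ _
  have hTj' : (frD θ β p S₀ b tp ia ta).Tj (rowS θ) (rowF h1.cos_pos.le) {true} δ n m =
      fun ω => Tb ω * TK U zA' m ω * TK U zQ' m ω := by
    rw [hU] at hTb
    rw [hTb, hU, hzA, hzQ]
    exact funext fun ω => hTj m ω
  have hFA : Flat3 rA zA' (4 * m) U (enl S₀ n) := by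
    rw [hrA, hzA, hU]
    exact flat_zA H hbg (by push_cast; exact n10)
  have hFQ : ∀ v ∈ LQ rQ zQ' (-m) m (-1) 0, v ∈ U := by
    intro v hv
    have h2 : v ∈ Bq zQ' (4 * m) :=
      lq_bq (lq_sub (by omega) (by omega) (by omega) (by omega) hv)
    rw [hzQ] at h2
    rw [hU, (flat_zQ (R := 4 * m) H (by push_cast; exact n10) h2).1, ← hzQ, ← hrQ]
    exact lq_sub (by omega) (by omega) (by omega) (by omega) hv
  -- positions
  obtain ⟨B, hB⟩ : ∃ B : ℤ, B = bM p * n := ⟨_, rfl⟩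
  have pA := lc_deep H.hp H.hN (σ := ⌊ta * n⌋₊) (i := ia)
    (Enl.dob_lt hbg.2.2.1 hbg.2.2.2.1 b5).le (z := zA p n ia ta) rfl
  have pB := lc_deep H.hp H.hN (σ := ⌊tp * n⌋₊) (i := 0)
    (Enl.dob_lt h0 ht1 b5).le (z := zB p n tp) (by unfold zB; rfl)
  rw [← hB, ← hzA] at pA
  rw [← hB] at pB
  have pQ2 := (zBx_co (p := p) (ia := ia) b n).1
  rw [← hzQ, ← hB] at pQ2
  obtain ⟨v₀, hv₀, w₀⟩ := near_row fun v hv =>
    hFQ v (lq_sub (by omega) (by omega) le_rfl le_rfl hv)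
  have b0 := uD_box (θ := θ) (β := β) (ia := ia) (ta := ta) H (hU ▸ hv₀)
  rw [← hB] at b0
  have hn64 : 64 ≤ (n : ℤ) := by
    have h2 : g * n ≤ n := mul_le_of_le_one_left hn0 b3
    have h3 : (64 : ℝ) ≤ n := b1.trans h2
    exact_mod_cast h3
  have hmn : 4 * (m : ℤ) ≤ n := by
    have h2 : (4 * (m : ℝ)) ≤ n := by
      push_cast at n10
      have h3 : g / 16 * n ≤ n := mul_le_of_le_one_left hn0 (by linarith)
      linarith
    exact_mod_cast h2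
  obtain ⟨r₁, hr₁⟩ : ∃ r₁ : ℤ, r₁ = B + 3 * n := ⟨_, rfl⟩
  have hr₁' : ((bM p + 3 : ℕ) : ℤ) * n = r₁ := by
    rw [hr₁, hB]
    push_cast
    ring
  have hMr : (κA : ℤ) * ⌊εA * n⌋ ≤ M * n ∧ (κX : ℤ) * ⌊εX * n⌋ ≤ M * n ∧ r₁ ≤ M * n := by
    have f1 := mul_le_mul_of_nonneg_left (Int.floor_le (εA * n)) (Nat.cast_nonneg (α := ℝ) κA)
    have f2 := mul_le_mul_of_nonneg_left (Int.floor_le (εX * n)) (Nat.cast_nonneg (α := ℝ) κX)
    have f3 := mul_le_mul_of_nonneg_right hM hn0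
    have f4 : 0 ≤ κA * εA * (n : ℝ) := by positivity
    have f5 : 0 ≤ κX * εX * (n : ℝ) := by positivity
    have f6 : 0 ≤ (bM p : ℝ) * (n : ℝ) := by positivity
    refine ⟨?_, ?_, ?_⟩
    · have h2 : (κA : ℝ) * ⌊εA * n⌋ ≤ M * n := by linarith
      exact_mod_cast h2
    · have h2 : (κX : ℝ) * ⌊εX * n⌋ ≤ M * n := by linarith
      exact_mod_cast h2
    · rw [← hr₁']
      have h2 : ((bM p : ℝ) + 3) * n ≤ M * n := by linarith
      exact_mod_cast h2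
  obtain ⟨hMr1, hMr2, hMr3⟩ := hMr
  have hM0 : (0 : ℤ) ≤ M * n := by positivity
  have n4A : ⌊ε' * n⌋ ≤ ⌊εA * n⌋ :=
    n4.trans (Int.floor_le_floor (mul_le_mul_of_nonneg_right (min_le_left _ _) hn0))
  have n4X : ⌊ε' * n⌋ ≤ ⌊εX * n⌋ :=
    n4.trans (Int.floor_le_floor (mul_le_mul_of_nonneg_right (min_le_right _ _) hn0))
  have hgd : (⌊δ * n⌋₊ : ℤ) + 4 ≤ ⌊gA * n⌋ := by
    rw [Int.le_floor]
    have h2 : (⌊δ * n⌋₊ : ℝ) ≤ δ * n := Nat.floor_le (by positivity)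
    have h3 : 2 * δ * n ≤ gA * n := mul_le_mul_of_nonneg_right d4 hn0
    have h4 : 16 ≤ gA * n := by
      have h5 : 16 / gA ≤ n := hn₁.trans (by exact_mod_cast nn')
      rw [div_le_iff₀ hgA] at h5
      linarith
    push_cast
    linarith
  have hI : ∀ w ∈ enl {(0, 0)} (bM p * n) ∪ U, nm (w - zQ') + 2 ≤ r₁ := by
    intro w hw
    have h2 : (-1 ≤ w.1 ∧ w.1 ≤ B) ∧ -1 ≤ w.2 ∧ w.2 ≤ B := by
      rw [hB]
      rcases mem_union.1 hw with hw | hw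
      · have h3 := mem_boxE.1 hw
        push_cast at h3
        omega
      · exact uD_box (θ := θ) (β := β) (ia := ia) (ta := ta) H (hU ▸ hw)
    have h3 : nm (w - zQ') ≤ B + 2 := by
      rw [H632.nm_le]
      simp only [Prod.fst_sub, Prod.snd_sub]
      omega
    omega
  -- the squares
  obtain ⟨AA, hAA⟩ : ∃ A, A = FreD θ β p S₀ b tp ia ta δ n ⌊gA * n⌋ m := ⟨_, rfl⟩
  obtain ⟨AQ, hAQ⟩ : ∃ A, A = Fre (frD θ β p S₀ b tp ia ta) θ S₀ δ n ⌊gX * n⌋ rQ zQ' m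
    ⌊R₀ * n⌋ \ enl {(0, 0)} (bM p * n) := ⟨_, rfl⟩
  rw [← hAA] at hokA
  rw [← hrQ, ← hzQ, ← hAQ] at hokQ
  rw [← hrA, ← hzA] at hMA
  rw [← hrQ, ← hzQ] at hMQ
  have hTA : ∀ v ∈ AA ∪ LQ rA zA' (-m) (4 * m) 0 (3 * m),
      v ∈ offD θ β p S₀ b tp ia ta δ n ∧ v ∉ Bq (zB p n tp) m := by
    intro v hv
    rcases mem_union.1 hv with hv | hv
    · rw [hAA] at hv
      exact freD_off hgd hv
    · rw [hrA, hzA] at hv
      exact lqA_off H hbg (by omega) (by push_cast; exact n10) (by push_cast; exact n11) d3 hv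
  have hAAc : ∀ v ∈ AA, v ∉ LQ rA zA' (-m) m 0 (3 * m) := by
    intro v hv
    rw [hAA, memFreD, memFre] at hv
    rw [hrA, hzA]
    exact hv.1.1.2
  have hAQm : ∀ v ∈ AQ, v ∈ Bq 0 ⌊R₀ * n⌋ ∧ v ∉ U ∧ v ∉ enl {(0, 0)} (bM p * n) ∧
      v ∉ LQ rQ zQ' (-m) m 0 (3 * m) := by
    intro v hv
    rw [hAQ, Finset.mem_sdiff, memFre, ← hU] at hv
    exact ⟨hv.1.1.1.1.1, hv.1.1.1.1.2, hv.2, hv.1.2⟩
  have hLQQ : ∀ v ∈ LQ rQ zQ' (-m) (4 * m) 0 (3 * m), v ∉ U ∧ v ∉ enl {(0, 0)} (bM p * n) := by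
    intro v hv
    have h2 := (memLQ.1 hv).2.2.1
    rw [hrQ2] at h2
    change zQ'.2 + 0 ≤ v.2 at h2
    have h3 := DobN.top (θ := θ) (β := β) (ia := ia) (ta := ta) H (v := v) (by omega)
    rw [hU]
    exact ⟨h3.1, h3.2.2⟩
  have hRF : ∀ v ∈ rF zQ' r₁, v ∉ U ∧ v ∉ enl {(0, 0)} (bM p * n) := by
    intro v hv
    rw [mrF] at hv
    constructor
    · intro h2
      have h3 := hI v (mem_union_right _ h2)
      have h4 := H632.nm_le.1 (le_refl (nm (v - zQ')))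
      simp only [Prod.fst_sub, Prod.snd_sub] at h4
      omega
    · intro h2
      have h3 := hI v (mem_union_left _ h2)
      have h4 := H632.nm_le.1 (le_refl (nm (v - zQ')))
      simp only [Prod.fst_sub, Prod.snd_sub] at h4
      omega
  have hTQ : ∀ v ∈ (AQ ∪ rF zQ' r₁) ∪ LQ rQ zQ' (-m) (4 * m) 0 (3 * m),
      v ∉ U ∧ v ∉ enl {(0, 0)} (bM p * n) := by
    intro v hv
    rcases mem_union.1 hv with hv | hv
    · rcases mem_union.1 hv with hv | hv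
      · exact ⟨(hAQm v hv).2.1, (hAQm v hv).2.2.1⟩
      · exact hRF v hv
    · exact hLQQ v hv
  have hbxA : ∀ v ∈ Bq zA' m, v ∈ enl {(0, 0)} (bM p * n) := by
    intro v hv
    have h2 := mBq.1 hv
    rw [mem_boxE]
    push_cast
    omega
  have hbxB : ∀ v ∈ Bq (zB p n tp) m, v ∈ enl {(0, 0)} (bM p * n) := by
    intro v hv
    have h2 := mBq.1 hv
    rw [mem_boxE]
    push_cast
    omega
  obtain ⟨Rb, hRb1, hRb2⟩ : ∃ Rb : ℤ, ⌊R₀ * n⌋ ≤ Rb ∧ 3 * r₁ ≤ Rb :=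
    ⟨max ⌊R₀ * n⌋ (3 * r₁), le_max_left _ _, le_max_right _ _⟩
  have hmb : ∀ {v : Pt} {R : ℤ}, v ∈ Bq 0 R ↔ (-R ≤ v.1 ∧ v.1 < R) ∧ -R ≤ v.2 ∧ v.2 < R := by
    intro v R
    rw [mBq]
    simp
  have hoffD : ∀ v ∈ offD θ β p S₀ b tp ia ta δ n, v ∈ Bq 0 Rb \ U := by
    rintro v ⟨v1, v2, -, -⟩
    have h2 := mem_boxE.1 v1
    push_cast at h2
    rw [Finset.mem_sdiff, hmb, hU]
    exact ⟨by omega, v2⟩
  have hparA : (zA'.1 + zA'.2) % 2 = pr (cz zA') := cz_pr zA'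
  have hparQ : (zQ'.1 + zQ'.2) % 2 = pr (cz zQ') := cz_pr zQ'
  obtain ⟨Mb, hMb⟩ := Vale.Agent.P167.H506.Q.loc_bdd hTbl
  unfold FrS.E
  rw [hTj', ← hU]
  have hLA : Loc (AA ∪ LQ rA zA' (-m) (4 * m) 0 (3 * m)) ((PE (cz zA') zA'
      (AA ∪ LQ rA zA' (-m) (4 * m) 0 (3 * m)) (lst XA LA) jA []).indicator (1 : Cfg → ℝ)) :=
    pe_loc subset_rfl fun Y hY => absurd hY List.not_mem_nil
  have hLQ : Loc ((AQ ∪ rF zQ' r₁) ∪ LQ rQ zQ' (-m) (4 * m) 0 (3 * m)) ((PE (cz zQ') zQ'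
      ((AQ ∪ rF zQ' r₁) ∪ LQ rQ zQ' (-m) (4 * m) 0 (3 * m)) (lst XQ LB) jQ
        (rg zQ' r₁ (2 * r₁))).indicator (1 : Cfg → ℝ)) :=
    pe_loc subset_rfl fun Y hY => (rg_sq Y hY).trans (coe_subset.2
      (subset_union_right.trans subset_union_left))
  refine ef_lift (D := Bq 0 Rb \ U) (M := Mb) h1.kit hP hg disjoint_sdiff_self_left
    (W := fun ω => Tb ω * (PE (cz zQ') zQ' ((AQ ∪ rF zQ' r₁) ∪
      LQ rQ zQ' (-m) (4 * m) 0 (3 * m)) (lst XQ LB) jQ (rg zQ' r₁ (2 * r₁))).indicator 1 ω *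
      (PE (cz zA') zA' (AA ∪ LQ rA zA' (-m) (4 * m) 0 (3 * m)) (lst XA LA) jA
        []).indicator 1 ω) (by positivity)
    (LF.mul (LF.mul ⟨_, hTbl⟩ ⟨_, TK_loc U zA' m⟩) ⟨_, TK_loc U zQ' m⟩)
    (LF.mul (LF.mul ⟨_, hTbl⟩ ⟨_, hLQ⟩) ⟨_, hLA⟩)
    ((((QL.of_loc hTbl).mul (QL.of_loc (TK_loc U zA' m))).mul (QL.of_loc (TK_loc U zQ' m))).mul
      (ql_ind ql_TO)) (fun ω _ => ?_) (fun ζ hζ _ => ?_) fun ω hω hωσ => ?_
  · exact bd4 (hTb0 ω) (hMb ω) (TK_nonneg _ _ _ _) (TK_le_one _ _ _ _) (TK_nonneg _ _ _ _)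
      (TK_le_one _ _ _ _) (ind_nonneg _ _) (ind_le_one _ _)
  · have key := hX (rA := rA) (rQ := rQ) (eA := cz zA') (eQ := cz zQ') (zA := zA') (zQ := zQ')
      (m := m) (s := ⌊ε' * n⌋) (r₁ := r₁) (AA := AA) (AQ := AQ) (D := Bq 0 Rb \ U) (U := U)
      (η := ζ) (W := Tb) (XA := XA) (XQ := XQ) (LA := LA) (LB := LB) (jA := jA) (jQ := jQ) hζ
      hparA hparQ n2 n3 n7 (by omega) (by omega) (by omega) (flat_row hFA (by omega) (by omega))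
      (fun v hv => hoffD v (hTA v (mem_union_right _ hv)).1)
      (fun v hv => hoffD v (hTA v (mem_union_left _ hv)).1)
      (Finset.disjoint_left.2 hAAc) hMA hcA (hlA.trans (le_max_left _ _))
      (fun Y hY => ok_s (hokA Y hY) n4A (by omega)) hFQ
      (fun v hv => Finset.mem_sdiff.2 ⟨hmb.2 ?_, (hLQQ v hv).1⟩)
      (fun v hv => Finset.mem_sdiff.2 ⟨hmb.2 ?_, (hAQm v hv).2.1⟩)
      (fun v hv => Finset.mem_sdiff.2 ⟨hmb.2 ?_, (hRF v hv).1⟩)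
      (Finset.disjoint_left.2 fun v hv => (hAQm v hv).2.2.2) hMQ hcQ (hlQ.trans (le_max_right _ _))
      (fun Y hY => ok_s (hokQ Y hY) n4X (by omega))
      (Finset.disjoint_left.2 fun v hv hv' => (hTQ v hv').2 (hbxA v hv))
      (Finset.disjoint_left.2 fun v hv hv' => (hTQ v hv).2 (hTA v hv').1.1) hTb0
      (hTbl.ind (Finset.disjoint_left.2 fun v hv hv' => (hTA v hv').2 hv))
      (hTbl.ind (Finset.disjoint_left.2 fun v hv hv' => (hTQ v hv').2 (hbxB v hv)))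
    · rw [div_mul_eq_mul_div, one_mul, le_div_iff₀ hc0, mul_comm]
      exact key
    · have h2 := mBq.1 (lq_bq (k := 4 * m) (lq_sub (by omega) (by omega) (by omega) (by omega) hv))
      omega
    · have h2 := hmb.1 (hAQm v hv).1
      omega
    · have h2 := mrF.1 hv
      omega
  · by_cases h2 : ω ∈ PE (cz zQ') zQ' ((AQ ∪ rF zQ' r₁) ∪ LQ rQ zQ' (-m) (4 * m) 0 (3 * m))
        (lst XQ LB) jQ (rg zQ' r₁ (2 * r₁))
    swap
    · rw [Set.indicator_of_notMem h2, mul_zero, zero_mul]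
      exact mul_nonneg (mul_nonneg (mul_nonneg (hTb0 ω) (TK_nonneg _ _ _ _))
        (TK_nonneg _ _ _ _)) (ind_nonneg _ _)
    by_cases h3 : ω ∈ PE (cz zA') zA' (AA ∪ LQ rA zA' (-m) (4 * m) 0 (3 * m)) (lst XA LA) jA []
    swap
    · rw [Set.indicator_of_notMem h3, mul_zero]
      exact mul_nonneg (mul_nonneg (mul_nonneg (hTb0 ω) (TK_nonneg _ _ _ _))
        (TK_nonneg _ _ _ _)) (ind_nonneg _ _)
    have f1 : ∀ t ∈ Sd (pr (cz zQ')) (lst XQ LB) jQ, 2 * r₁ + 2 ≤ nm (t - zQ') := by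
      intro t htt
      have h4 : ((3 * (bM p + 3) : ℕ) * n : ℤ) ≤ nm t := hsQ _ htt
      have h5 : ((3 * (bM p + 3) : ℕ) * n : ℤ) = 3 * r₁ := by
        rw [← hr₁']
        push_cast
        ring
      rw [h5, H632.le_nm] at h4
      rw [H632.le_nm]
      simp only [Prod.fst_sub, Prod.snd_sub]
      omega
    have f2 : ω ∈ AZ (cz zQ') U zQ' m := by
      obtain ⟨⟨t, t1, t2⟩, -⟩ := h2
      refine az_of_path (t := t) (Pw.mono ?_ t2) (by have := f1 t t1; omega)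
      exact fun v hv => ⟨hv.1, (hTQ v (mem_coe.1 hv.2)).1⟩
    have f3 := armX_of hparQ hI (by omega) (fun v hv h5 => by
      rcases mem_union.1 h5 with h5 | h5
      · exact (hTQ v hv).2 h5
      · exact (hTQ v hv).1 h5) f1 h2
    obtain ⟨⟨t, t1, t2⟩, -⟩ := h3
    obtain ⟨u, u1, u2, u3, u4⟩ := hsA _ t1
    have f4 : t ∈ SidB p ia n tp g := by
      refine ⟨u, ?_, fun h4 => (u3.2 h4).le, fun h4 => ?_, u4⟩
      · have h4 : |(u : ℝ)| ≤ 3 * m := by exact_mod_cast u2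
        have h5 : (m : ℝ) ≤ g / 16 * n := by
          push_cast at n10
          have : (0 : ℝ) ≤ m := Nat.cast_nonneg m
          linarith
        have h6 : 0 ≤ g * n := by positivity
        linarith
      · by_contra h5
        exact h4 (u3.1 (by omega))
    have f5 : (m : ℤ) ≤ nm (t - zA') := by
      have h4 : nm (t - zB p n tp) ≤ 3 * m := by
        rw [u4, H632.nm_le]
        have h5 := abs_le.1 u2
        have h6 := Enl.fin4_cases (pdir p 0)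
        simp only [Prod.fst_sub, Prod.snd_sub]
        rcases h6 with h6 | h6 | h6 | h6 <;> rw [h6] <;> simp [lc] <;> omega
      have h5 := dist_zAB H hbg
      rw [← hzA] at h5
      have h6 : (5 * m : ℝ) ≤ (nm (zA' - zB p n tp) : ℝ) := by
        push_cast at n11
        have : (0 : ℝ) ≤ m := Nat.cast_nonneg m
        linarith
      have h7 : 5 * (m : ℤ) ≤ nm (zA' - zB p n tp) := by exact_mod_cast h6
      rw [H632.nm_le] at h4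
      rw [H632.le_nm] at h7 ⊢
      simp only [Prod.fst_sub, Prod.snd_sub] at h4 h7 ⊢
      omega
    have f6 : Pw (cs (cz zA') ω ∩ offD θ β p S₀ b tp ia ta δ n) zA' t := by
      refine Pw.mono ?_ t2
      exact fun v hv => ⟨hv.1, (hTA v (mem_coe.1 hv.2)).1⟩
    have f7 : ω ∈ AZ (cz zA') U zA' m := by
      refine az_of_path (t := t) (Pw.mono ?_ f6) f5
      exact fun v hv => ⟨hv.1, by rw [hU]; exact hv.2.2.1⟩
    have hfr : (frD θ β p S₀ b tp ia ta).Frz (rowS θ) δ n ω :=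
      (FrS.frz_iff hσ).2 (by rw [← hU]; exact hωσ)
    have f8 := to_frD (θ := θ) (β := β) H hbg h1.sin_pos.ne' h1.cos_pos.ne' hβ hR₃ hω hfr (by
        rw [← hU, show zQ p b n ia = zQ' from zQ_eq.trans hzQ.symm]
        exact f3) (by
        rw [← hzA]
        exact ⟨cz zA', t, hparA, f4, f6⟩)
    rw [Set.indicator_of_mem h2, Set.indicator_of_mem (show ω ∈ PE (cz zA') zA'
      (AA ∪ LQ rA zA' (-m) (4 * m) 0 (3 * m)) (lst XA LA) jA [] from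
        ⟨⟨t, t1, t2⟩, fun Z hZ => absurd hZ List.not_mem_nil⟩)]
    show Tb ω * 1 * 1 ≤ Tb ω * TK U zA' m ω * TK U zQ' m ω * _
    rw [Set.indicator_of_mem (show ω ∈ {ω | (frD θ β p S₀ b tp ia ta).TO (rowS θ) θ δ n R₃ ω ≠ 0}
      from f8)]
    unfold TK
    rw [Set.indicator_of_mem f2, Set.indicator_of_mem f7]
    simp

end Vale.Agent.P167.H433
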