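import Vale.Agent.P167.N.BAR.Low
import Vale.Agent.P167.N.ID.FrmS
import Vale.Agent.P167.N.ID.RowF
import Vale.Agent.P167.H262.WstFK

/-!
# P167, block ID, (P2S): definitions for the probabilistic part

Local coordinates at a site of a side of direction `r` (interior on the left): `u` backwards along the
side, `v` outwards. `LR`: rectangles in local coordinates. `CP`: paths of unit cells.
-/

set_option autoImplicit false

namespace Vale.Agent.P167.H433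

open Finset Filter Vale.Agent.P167 Vale.Agent.P167.FK Vale.Agent.P167.N Vale.Agent.P167.N.BAR
  Vale.Agent.P167.N.ID
open Vale.Agent.P167.H262 (Rsq)
open Vale.Agent.P167.H825.Q (Bc)
open Vale.Agent.P167.H825 (Box enl pdir)
open Vale.Agent.P167.E6 (IsPolygon Encloses)
open Vale.Agent.P167.Enl (vp)

/-- The site with the local coordinates `u` (backwards along the side), `v` (outwards). -/
def lc (r : Fin 4) (z : ℤ × ℤ) (u v : ℤ) : ℤ × ℤ :=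
  ![(z.1 - u, z.2 - v), (z.1 + v, z.2 - u), (z.1 + u, z.2 + v), (z.1 - v, z.2 + u)] r

/-- The rectangle `[a, b] × [p, q]` in local coordinates (`d = true`: along the side). -/
def LR (r : Fin 4) (z : ℤ × ℤ) (d : Bool) (a b p q : ℤ) : Crs :=
  ![⟨d, z.1 - b, z.1 - a, z.2 - q, z.2 - p⟩, ⟨!d, z.1 + p, z.1 + q, z.2 - b, z.2 - a⟩,
    ⟨d, z.1 + a, z.1 + b, z.2 + p, z.2 + q⟩, ⟨!d, z.1 - q, z.1 - p, z.2 + a, z.2 + b⟩] r

/-- The squares of the rectangle `[a, b] × [p, q]` in local coordinates. -/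
noncomputable def LQ (r : Fin 4) (z : ℤ × ℤ) (a b p q : ℤ) : Finset (ℤ × ℤ) :=
  Rsq (LR r z true a b p q).a (LR r z true a b p q).b (LR r z true a b p q).p
    (LR r z true a b p q).q

/-- **The picture near a site of the outer line of a row** of direction `r`: the row `U`, the domain
`E`. -/
def Flat3 (r : Fin 4) (z : ℤ × ℤ) (R : ℤ) (U E : Finset (ℤ × ℤ)) : Prop :=
  ∀ v ∈ Bq z R, (v ∈ U ↔ v ∈ LQ r z (-R) R (-1) 0) ∧ (v ∈ E ↔ v ∈ LQ r z (-R) R (-R) (-1))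

/-- **A path of unit cells** off `S`. -/
structure CP (S : Finset (ℤ × ℤ)) (c : ℕ → ℤ × ℤ) (k : ℕ) : Prop where
  out : ∀ i ≤ k, c i ∉ S
  adj : ∀ i < k, c (i + 1) = c i + (1, 0) ∨ c i = c (i + 1) + (1, 0) ∨ c (i + 1) = c i + (0, 1) ∨
    c i = c (i + 1) + (0, 1)

/-- The path of cells does not cross the ray below `(x, y)`. -/
def NoX (x y : ℤ) (c : ℕ → ℤ × ℤ) (k : ℕ) : Prop :=
  ∀ i < k, (c i).1 ≠ (c (i + 1)).1 → max (c i).1 (c (i + 1)).1 = x → y ≤ (c i).2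

/-- The squares of the box `Bq 0 R₀` which are not frozen, not in the domain, not at the holes, not
next to `z`. -/
noncomputable def Fre (Φ : FrS Row) (θ : ℝ) (S₀ : Finset (ℤ × ℤ)) (δ : ℝ) (n : ℕ) (g : ℤ) (r : Fin 4)
    (z : ℤ × ℤ) (m R₀ : ℤ) : Finset (ℤ × ℤ) :=
  (((Bq 0 R₀ \ Φ.U (rowS θ) δ n) \ enl S₀ n) \ Φ.hB δ n g) \ LQ r z (-m) m 0 (3 * m)

/-- **A chain of rectangles** from the place next to `z` (local coordinates, direction `r`) inside of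
`A`; its last rectangle has the side `j` in `Tg`. -/
def Chn (r : Fin 4) (z : ℤ × ℤ) (m : ℤ) (A : Finset (ℤ × ℤ)) (N κ : ℕ) (s : ℤ) (Tg : Set (ℤ × ℤ)) :
    Prop :=
  ∃ (X : Crs) (L : List Crs) (j : Bool), BAR.Mt (LR r z true 0 (4 * m) (2 * m) (3 * m)) X ∧ BAR.Ch X L ∧
    L.length + 1 ≤ N ∧ (∀ Y ∈ X :: L, Y.Ok s κ A) ∧ ∀ e : ℤ, BAR.Sd e (BAR.lst X L) j ⊆ Tg

variable {l : ℕ} [NeZero l]

/-- The outer base site: free and wired frames. -/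
noncomputable def zP (p : ZMod l → ℤ × ℤ) (n : ℕ) (tp : ℝ) (bc : Bc) : ℤ × ℤ :=
  lc (pdir p 0) (vp p n 0 (tP p n tp bc)) 0 1

/-- The outer site of the junction `a`: Dobrushin frames. -/
noncomputable def zA (p : ZMod l → ℤ × ℤ) (n : ℕ) (ia : ℕ) (ta : ℝ) : ℤ × ℤ :=
  lc (pdir p ia) (vp p n ia ⌊ta * n⌋₊) 0 1

/-- The outer base site `b` of the domain: Dobrushin frames. -/
noncomputable def zB (p : ZMod l → ℤ × ℤ) (n : ℕ) (tp : ℝ) : ℤ × ℤ :=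
  lc (pdir p 0) (vp p n 0 ⌊tp * n⌋₊) 0 1

/-- **(GX) The chain of the free and wired frames**: from the base to far away. -/
def ChP (θ β : ℝ) (p : ZMod l → ℤ × ℤ) (S₀ : Finset (ℤ × ℤ)) (b : Box) (tp : ℝ) (bc : Bc) : Prop :=
  ∃ κ₁ : ℝ, 0 < κ₁ ∧ ∀ κ' : ℝ, 0 < κ' → κ' < κ₁ → ∀ M : ℕ, ∃ (N κ : ℕ) (ε g R₀ δ₀ : ℝ), 0 < ε ∧
    0 < g ∧ 0 < δ₀ ∧ ∀ δ : ℝ, 0 < δ → δ < δ₀ → ∀ᶠ n : ℕ in atTop,
    Chn (pdir p 0) (zP p n tp bc) ⌊4 * κ' * n⌋ (Fre (frP θ β p S₀ b tp bc) θ S₀ δ n ⌊g * n⌋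
      (pdir p 0) (zP p n tp bc) ⌊4 * κ' * n⌋ ⌊R₀ * n⌋) N κ ⌊ε * n⌋ {s | (M * n : ℤ) ≤ nm s}

/-- The squares of the region `R` for the chain at the junction: in the box, off the box at `b`. -/
noncomputable def FreD (θ β : ℝ) (p : ZMod l → ℤ × ℤ) (S₀ : Finset (ℤ × ℤ)) (b : Box) (tp : ℝ)
    (ia : ℕ) (ta : ℝ) (δ : ℝ) (n : ℕ) (g m : ℤ) : Finset (ℤ × ℤ) :=
  (Fre (frD θ β p S₀ b tp ia ta) θ S₀ δ n g (pdir p ia) (zA p n ia ta) m (bM p * n) \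
    Bq (zB p n tp) (m + 2)).filter
      fun v => ((g ≤ v.1 ∧ v.1 + g ≤ bM p * n) ∧ g ≤ v.2 ∧ v.2 + g ≤ bM p * n)

/-- **(GR) The chain of the Dobrushin frames**: from the junction `a` in the region `R` to the outer
line of the row of the base `b`: before `b` (`u > 0`) if `T` is on the closed arc, behind `b` (`u < 0`)
otherwise. -/
def ChD (θ β : ℝ) (p : ZMod l → ℤ × ℤ) (S₀ : Finset (ℤ × ℤ)) (b : Box) (tp : ℝ) (ia : ℕ) (ta : ℝ) :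
    Prop :=
  ∃ κ₁ : ℝ, 0 < κ₁ ∧ ∀ κ' : ℝ, 0 < κ' → κ' < κ₁ → ∃ (N κ : ℕ) (ε g δ₀ : ℝ), 0 < ε ∧
    0 < g ∧ 0 < δ₀ ∧ ∀ δ : ℝ, 0 < δ → δ < δ₀ → ∀ᶠ n : ℕ in atTop,
    Chn (pdir p ia) (zA p n ia ta) ⌊4 * κ' * n⌋
      (FreD θ β p S₀ b tp ia ta δ n ⌊g * n⌋ ⌊4 * κ' * n⌋) N κ ⌊ε * n⌋
      {s | ∃ u : ℤ, 2 * ⌊4 * κ' * n⌋ ≤ |u| ∧ |u| ≤ 3 * ⌊4 * κ' * n⌋ ∧ (0 < u ↔ clT p ia) ∧
        s = lc (pdir p 0) (zB p n tp) u 0}

end Vale.Agent.P167.H433
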