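import Vale.Agent.P167.H433.PsD

/-!
# P167, `0 < q < 1`: (P2S) for the free and wired frames and for the Dobrushin frames
-/

set_option autoImplicit false

namespace Vale.Agent.P167.H433

open MeasureTheory Vale.Agent.P167 Vale.Agent.P167.FK
open Vale.Agent.P167.N (Ang)
open Vale.Agent.P167.N.ID
open Vale.Agent.P167.H825 (Box)
open Vale.Agent.P167.H825.Q (Bc)
open Vale.Agent.P167.E6 (IsPolygon Encloses)
open Vale.Agent.P167.H199 (mks)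
open Vale.Agent.P167.H519 (IsLim)

variable {θ β : ℝ} {l : ℕ} {p : ZMod l → ℤ × ℤ} {S₀ : Finset (ℤ × ℤ)} {tp : ℝ} {bc : Bc} {b : Box}

/-- **(P2S) for the free and wired frames.** -/
theorem frP_p2s [NeZero l] (h1 : Ang θ) {P : Measure Cfg} (hP : IsLim (2 * Real.cos θ) P)
    (hp : IsPolygon p) (hD : Encloses p S₀) (hN : Nrm p)
    (hb : b.Ok S₀) (h0 : 0 < tp) (ht1 : tp < 1)
    (ht : ∀ i : ℤ, ∀ y ∈ ({b.xl, b.xr, b.yb, b.yt} : Set ℝ), y ≠ i + tp ∧ y ≠ i - tp)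
    (hbk : bc.Ok l (mks p b tp)) (hbc : bc = .free ∨ bc = .wired) :
    (frP θ β p S₀ b tp bc).P2Sg (rowS θ) (rowF h1.cos_pos.le) {true} θ P :=
  p2s_P h1 hP hp hD hN hb h0 ht1 ht hbk hbc
    (chP hp hD h0 ht1 (freeP_of hp hD hN hb h0 ht1 ht hbk))

/-- **(P2S) for the Dobrushin frames.** -/
theorem frD_p2s [NeZero l] {ia : ℕ} {ta : ℝ} (h1 : Ang θ) {P : Measure Cfg}
    (hP : IsLim (2 * Real.cos θ) P) (hβ : β = (θ - Real.pi) / 2)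
    (hp : IsPolygon p) (hD : Encloses p S₀) (hN : Nrm p)
    (hb : b.Ok S₀) (h0 : 0 < tp) (ht1 : tp < 1)
    (ht : ∀ i : ℤ, ∀ y ∈ ({b.xl, b.xr, b.yb, b.yt} : Set ℝ), y ≠ i + tp ∧ y ≠ i - tp)
    (hbk : (Bc.dob ia ta).Ok l (mks p b tp)) :
    (frD θ β p S₀ b tp ia ta).P2Sg (rowS θ) (rowF h1.cos_pos.le) {true} θ P :=
  p2s_D h1 hP hβ hp hD hN hb h0 ht1 ht hbk
    (chD hp hD hN h0 ht1 hbk.1 hbk.2.1 hbk.2.2.1 hbk.2.2.2.1 (freeD_of hp hD hN hb h0 ht1 ht hbk))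
    (chX_of hp hD hN hb h0 ht1 ht hbk)

end Vale.Agent.P167.H433
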