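import Vale.Agent.P167.H433.ExtF

/-!
# P167, `0 < q < 1`, (P2S): an arm of a flat boundary site is joined to a crossing

`hook_can`: the flat side is horizontal and the domain is above. The arm of `z` in the half box of
radius `m` and the crossing of the rectangle `[0, 4m] × [2m, 3m]` (relative to `z`) are joined, with a
factor which does not read the column `[-m, m] × [0, 3m]`.
-/

set_option autoImplicit false

namespace Vale.Agent.P167.H433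

open Finset Vale.Agent.P167 Vale.Agent.P167.FK Vale.Agent.P167.FKA Vale.Agent.P167.H871
  Vale.Agent.P167.H632 Vale.Agent.P167.H192.TA Vale.Agent.P167.N.NET Vale.Agent.P167.H718
open Vale.Agent.P145.FB (PStep PConn)
open Relation (ReflTransGen)
open Vale.Agent.P167.H262 (Rsq mem_Rsq)

variable {Q : ℝ} {z : Pt} {e : Bool} {D : Finset Pt} {η ω : Cfg} {F : Cfg → ℝ}

/-- `z` is joined to a crossing of the rectangle. -/
def HK (e : Bool) (z : Pt) (K G A₁ A₃ : Set Pt) : Set Cfg :=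
  {ω | ∃ u ∈ A₁, ∃ v ∈ A₃, Pw (cs e ω ∩ G) u v ∧ Pw (cs e ω ∩ K) z u}

/-- **The hook.** -/
theorem hook_can (hQ : 0 < Q) (hQ1 : Q ≤ 1) (hV : VRS Q) : ∃ c : ℝ, 0 < c ∧ c ≤ 1 ∧
    ∀ {e : Bool} {z : Pt} {m : ℕ} {D : Finset Pt} {η : Cfg} {F : Cfg → ℝ}, 6 ≤ m → Good η →
      (z.1 + z.2) % 2 = pr e → Rsq (z.1 - m) (z.1 + 4 * m) z.2 (z.2 + 3 * m) ⊆ D →
      (∀ ω, 0 ≤ F ω) →
      (∀ ω ω' : Cfg, (∀ v, v ∉ Rsq (z.1 - m) (z.1 + m) z.2 (z.2 + 3 * m) → ω' v = ω v) →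
        F ω' = F ω) →
      c * Ex Q D η (fun ω => F ω * (Jn e ↑(Rsq z.1 (z.1 + 4 * m) (z.2 + 2 * m) (z.2 + 3 * m))
        (Vs e z.1 (z.2 + 2 * m) (z.2 + 3 * m))
        (Vs e (z.1 + 4 * m) (z.2 + 2 * m) (z.2 + 3 * m))).indicator 1 ω *
          (Jn e ↑(HBx z m) {z} (SO e z m)).indicator 1 ω) ≤
      Ex Q D η (fun ω => F ω * (HK e z ↑(Rsq (z.1 - m) (z.1 + 4 * m) z.2 (z.2 + 3 * m))
        ↑(Rsq z.1 (z.1 + 4 * m) (z.2 + 2 * m) (z.2 + 3 * m))
        (Vs e z.1 (z.2 + 2 * m) (z.2 + 3 * m))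
        (Vs e (z.1 + 4 * m) (z.2 + 2 * m) (z.2 + 3 * m))).indicator 1 ω) := by
  obtain ⟨κ₁, h1, h1', hA⟩ := VT_arch hQ hQ1 hV 4
  obtain ⟨κ₂, h2, h2', hR⟩ := hV 12
  refine ⟨κ₂ * κ₁, mul_pos h2 h1, mul_le_one₀ h2' h1.le h1', ?_⟩
  intro e z m D η F hm hη hz hD hF0 hF
  obtain ⟨i, hi⟩ : ∃ i : ℕ, i = m / 2 := ⟨_, rfl⟩
  have hi4 : m ≤ 4 * (i - 1) := by omega
  have hpr := pr_not e
  have hpe := pr_or e
  -- the tubes
  have g1 := (hA e (z.1 - m) (z.1 - i) (z.1 + i) (z.1 + m) z.2 z.2 (z.2 + i) (z.2 + m)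
    (by omega) (by omega) (by omega) (by omega) (by omega) (by omega)
    (by push_cast; omega) (by push_cast; omega) (by push_cast; omega)).1
  have g2 := (hR e (z.1 + 1) (z.1 + i) z.2 (z.2 + 3 * m) (by omega) (by omega)).2 (by
    push_cast; omega)
  set G' : Finset Pt := Rsq z.1 (z.1 + 4 * m) (z.2 + 2 * m) (z.2 + 3 * m) with hG'
  set T : Finset Pt := Rsq (z.1 + 1) (z.1 + i) z.2 (z.2 + 3 * m) with hT
  set T₁ : Finset Pt := arch (z.1 - m) (z.1 - i) (z.1 + i) (z.1 + m) z.2 z.2 (z.2 + i) (z.2 + m)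
    with hT₁
  set X : Set Cfg := Jn e ↑G' (Vs e z.1 (z.2 + 2 * m) (z.2 + 3 * m))
    (Vs e (z.1 + 4 * m) (z.2 + 2 * m) (z.2 + 3 * m)) with hX
  have hHD : HBx z m ⊆ D := by
    refine subset_trans (fun v hv => ?_) hD
    rw [mem_HBx] at hv
    rw [mem_Rsq]
    omega
  have hGD : G' ⊆ D := by
    refine subset_trans (fun v hv => ?_) hD
    rw [mem_Rsq] at hv ⊢
    omega
  have hTD : T ⊆ D := by
    refine subset_trans (fun v hv => ?_) hD
    rw [mem_Rsq] at hv ⊢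
    omega
  have hT1 : T₁ ⊆ HBx z m := by
    intro v hv
    rw [mem_arch] at hv
    rw [mem_HBx]
    omega
  have hX0 : ∀ ω, 0 ≤ X.indicator (1 : Cfg → ℝ) ω := fun ω =>
    Set.indicator_nonneg (fun _ _ => zero_le_one) ω
  -- the landing
  have k1 := land (F := fun ω => F ω * X.indicator 1 ω) (D := D) (η := η) (T := T₁)
    (A := Hs e z.2 (z.1 - m) (z.1 - i)) (B := Hs e z.2 (z.1 + i) (z.1 + m)) (m := m) (e := e)
    (z := z) hQ hQ1 hη (by omega) hz hHD hT1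
    (fun x hx => ⟨hx.1, hx.2.1, by have := hx.2.2.1; omega, hx.2.2.2⟩)
    (fun x hx => ⟨hx.1, by have := hx.2.1; omega, hx.2.2.1, hx.2.2.2⟩)
    (fun ω => mul_nonneg (hF0 ω) (hX0 ω)) (fun ω ω' h => ?_)
  swap
  · have e1 : F ω' = F ω := hF ω ω' fun v hv => h v fun h3 => hv (by
      have := mem_HBx.1 (hT1 h3)
      rw [mem_Rsq]
      omega)
    have e2 : cs e ω' ∩ (↑G' : Set Pt) = cs e ω ∩ ↑G' := by
      ext v
      refine and_congr_left fun hv => ?_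
      show ω' v = e ↔ ω v = e
      rw [h v fun h3 => ?_]
      have h4 := mem_HBx.1 (hT1 h3)
      have h5 := mem_Rsq.1 (mem_coe.1 hv)
      omega
    have e3 : ω' ∈ X ↔ ω ∈ X := by
      rw [hX]
      unfold Jn
      rw [Set.mem_ofPred_eq, Set.mem_ofPred_eq, e2]
    rw [e1]
    by_cases h3 : ω ∈ X
    · rw [Set.indicator_of_mem h3, Set.indicator_of_mem (e3.2 h3)]
      rfl
    · rw [Set.indicator_of_notMem h3, Set.indicator_of_notMem fun h4 => h3 (e3.1 h4)]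
  -- the hook
  have k2 := net2 (F := F) (D := D) (η := η) (T := T) (G := HBx z m) (G' := G') (e := e)
    (A := Hs e z.2 (z.1 + 1) (z.1 + i)) (B := Hs e (z.2 + 3 * m) (z.1 + 1) (z.1 + i))
    hQ hQ1 hη hTD hHD hGD (quad1 (m := m) (i := i) (by omega) hz (by omega)) (fan_HBx e)
    (quad_H e (a := z.1) (b := z.1 + 4 * m) (c := z.2 + 2 * m) (d := z.2 + 3 * m) (by omega)
      (by omega)).swap24 (fan_rect _ _ _ _ _)
    (bd_bot fun t ht => (mem_Rsq.1 ht).2.2.1) (fun a ha => ?_) (fun t ht htG y hy hyG => ?_)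
    (bd_top fun t ht => (mem_Rsq.1 ht).2.2.2) (fun b hb => ?_) (fun t ht htG y hy hyG => ?_)
    (fun x hx hx' => ?_) hF0 (fun ω ω' h => hF ω ω' fun v hv => h v fun h3 => hv (by
      have := mem_Rsq.1 (mem_sdiff.1 h3).1
      rw [mem_Rsq]
      omega))
  · have e1 : Ex Q D η (fun ω => F ω * X.indicator 1 ω *
        (Jn e ↑(HBx z m) {z} (Hs e z.2 (z.1 + i) (z.1 + m))).indicator 1 ω) =
        Ex Q D η (fun ω => F ω * (Jn e ↑(HBx z m) {z} (Hs e z.2 (z.1 + i) (z.1 + m)) ∩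
          X).indicator 1 ω) := by
      congr 1
      funext ω
      by_cases h3 : ω ∈ X <;>
        by_cases h4 : ω ∈ Jn e ↑(HBx z m) {z} (Hs e z.2 (z.1 + i) (z.1 + m)) <;>
        simp [h3, h4]
    have hE0 := Ex_nonneg (D := D) (η := η) hQ (F := fun ω => F ω * X.indicator 1 ω *
      (Jn e ↑(HBx z m) {z} (SO e z m)).indicator 1 ω) fun _ _ =>
        mul_nonneg (mul_nonneg (hF0 _) (hX0 _)) (Set.indicator_nonneg (fun _ _ => zero_le_one) _)
    rw [e1] at k1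
    have k3 : κ₂ * κ₁ * Ex Q D η (fun ω => F ω * X.indicator 1 ω *
        (Jn e ↑(HBx z m) {z} (SO e z m)).indicator 1 ω) ≤
        VT Q e T (Hs e z.2 (z.1 + 1) (z.1 + i)) (Hs e (z.2 + 3 * m) (z.1 + 1) (z.1 + i)) *
          (VT Q e T₁ (Hs e z.2 (z.1 - m) (z.1 - i)) (Hs e z.2 (z.1 + i) (z.1 + m)) *
            Ex Q D η (fun ω => F ω * X.indicator 1 ω *
              (Jn e ↑(HBx z m) {z} (SO e z m)).indicator 1 ω)) := by
      rw [← mul_assoc]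
      exact mul_le_mul_of_nonneg_right (mul_le_mul g2 g1 h1.le (VT_nonneg hQ _ _ _ _)) hE0
    refine k3.trans ((mul_le_mul_of_nonneg_left k1 (VT_nonneg hQ _ _ _ _)).trans
      (k2.trans (Ex_mono hQ fun S _ => ind_mono hF0 ?_ _)))
    rintro ω ⟨a, a', ⟨u, hu, v, hv, m1, m2⟩, ⟨u', hu', v', hv', m3, m4⟩, m5⟩
    refine ⟨u', hu', v', hv', m3.trans m4, ?_⟩
    rw [Set.mem_singleton_iff] at hu
    subst hu
    refine (Pw.mono ?_ m1).trans ((Pw.mono ?_ m5).trans (Pw.mono ?_ m3).symm)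
    · rintro v ⟨w1, w2⟩
      refine ⟨w1, ?_⟩
      have := mem_HBx.1 (mem_coe.1 w2)
      rw [mem_coe, mem_Rsq]
      omega
    · rintro v ⟨w1, w2⟩
      refine ⟨w1, ?_⟩
      have := mem_Rsq.1 (mem_coe.1 w2)
      rw [mem_coe, mem_Rsq]
      omega
    · rintro v ⟨w1, w2⟩
      refine ⟨w1, ?_⟩
      have := mem_Rsq.1 (mem_coe.1 w2)
      rw [mem_coe, mem_Rsq]
      omega
  · obtain ⟨a1, a2, a3, a4⟩ := ha
    refine ⟨(a.1 - 1, z.2), ?_, ?_, (a.1 - 1, z.2), ?_, ?_⟩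
    · rw [mem_coe, mem_HBx]; dsimp only; omega
    · unfold N.NET.Cor; dsimp only; omega
    · refine ⟨rfl, ?_, ?_, ?_⟩ <;> dsimp only <;> omega
    · unfold N.NET.Cor; dsimp only; omega
  · refine nx_out (by omega) hyG ?_
    rw [mem_coe] at ht htG
    rw [mem_HBx] at htG
    rw [mem_Rsq] at ht
    obtain ⟨v, hv, hvy⟩ := hyG
    rw [mem_coe, mem_HBx] at hv
    obtain ⟨c1, c2, c3⟩ := hy
    obtain ⟨d1, d2, d3⟩ := hvy
    omega
  · obtain ⟨b1, b2, b3, b4⟩ := hb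
    exact nx_top (by omega) (by omega) b1 (by omega) (by omega) b4
  · rw [mem_coe] at ht htG
    rw [mem_Rsq] at ht htG
    obtain ⟨r1, r2, r3, r4, r5⟩ := vc_rect hyG
    obtain ⟨c1, c2, c3⟩ := hy
    exact nx_bot (by omega) (by omega) (by omega) r1 r2 r5
  · obtain ⟨r1, r2, r3, r4, r5⟩ := vc_rect hx'
    obtain ⟨v, hv, d1, d2, d3⟩ := hx
    rw [mem_coe, mem_HBx] at hv
    omega

end Vale.Agent.P167.H433
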