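import Vale.Agent.P167.H433.PsX
import Vale.Agent.P167.N.ID.TOneP
import Vale.Agent.P167.N.ID.PsFrB
import Vale.Agent.P167.N.ID.H7S
import Vale.Agent.P167.N.ID.P1A
import Vale.Agent.P167.N.H199.QOm

/-!
# P167, `0 < q < 1`, (P2S) for the free and wired frames

`p2s_P`: from the chain `ChP`.
-/

set_option autoImplicit false

namespace Vale.Agent.P167.H433

open Finset MeasureTheory Filter Vale.Agent.P167 Vale.Agent.P167.FK Vale.Agent.P167.FKA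
  Vale.Agent.P167.H871 Vale.Agent.P167.H632 Vale.Agent.P167.H192.TA Vale.Agent.P167.N.NET
open Vale.Agent.P167.N (Crs Kit Ang)
open Vale.Agent.P167.N.BAR (Sd sq Mt Ch lst)
open Vale.Agent.P167.N.ID
open Vale.Agent.P167.H825 (Box enl pdir)
open Vale.Agent.P167.H825.Q (Bc)
open Vale.Agent.P167.E6 (IsPolygon Encloses)
open Vale.Agent.P167.Enl (vp)
open Vale.Agent.P167.H199 (mks)
open Vale.Agent.P167.H519 (IsLim)
open Vale.Agent.P167.QX (QL)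
open Vale.Agent.P167.H506.Q (LF)
open Vale.Agent.P167.N.H825.Q (GpT)
open Vale.Agent.P167.H680.T (uI mem_uI)

variable {θ β g δ : ℝ} {l n : ℕ} {p : ZMod l → ℤ × ℤ} {S₀ : Finset (ℤ × ℤ)} {tp : ℝ} {bc : Bc}
  {b : Box} {r : Fin 4} {z : Pt} {R k : ℤ} {U E : Finset Pt}

/-! ### the local picture -/

theorem flat_out (hF : Flat3 r z R U E) (hk : 0 ≤ k) (hkR : 4 * k ≤ R) {v : Pt}
    (hv : v ∈ LQ r z (-k) (4 * k) 0 (3 * k)) : v ∉ U ∧ v ∉ E := by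
  have h1 : v ∈ Bq z R := lq_bq (lq_sub (by omega) (by omega) (by omega) (by omega) hv)
  obtain ⟨h2, h3⟩ := hF v h1
  rw [h2, h3]
  rw [mLQ] at hv ⊢
  rw [mLQ]
  omega

theorem flat_row (hF : Flat3 r z R U E) (hk : 1 ≤ k) (hkR : k ≤ R) : ∀ v ∈ LQ r z (-k) k (-1) 0,
    v ∈ U := by
  intro v hv
  have h1 : v ∈ Bq z R := lq_bq (lq_sub (by omega) (by omega) (by omega) (by omega) hv)
  rw [(hF v h1).1]
  exact lq_sub (by omega) (by omega) (by omega) (by omega) hv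

/-- There is a square of the row next to the site. -/
theorem near_row (h : ∀ v ∈ LQ r z (-1) 1 (-1) 0, v ∈ U) : ∃ v ∈ U, (z.1 - 1 ≤ v.1 ∧ v.1 ≤ z.1) ∧
    z.2 - 1 ≤ v.2 ∧ v.2 ≤ z.2 := by
  have h1 : (rT r z).Q (z.1, z.2 - 1) ∈ LQ r z (-1) 1 (-1) 0 := by
    rw [rT_LQ, H262.mem_Rsq]
    dsimp only
    omega
  refine ⟨_, h _ h1, ?_⟩
  have h2 := mBq.1 (lq_bq (k := 1) (lq_sub (by omega) (by omega) (by omega) (by omega) h1))
  omega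

section

variable [NeZero l]

/-- The rows are in the box. -/
theorem uP_box (H : PolN p S₀ b tp bc g δ n) {v : Pt}
    (hv : v ∈ (frP θ β p S₀ b tp bc).U (rowS θ) δ n) :
    (0 ≤ v.1 ∧ v.1 ≤ bM p * n) ∧ 0 ≤ v.2 ∧ v.2 ≤ bM p * n := by
  have hI : ∀ x : Fin l × Fin 3, (rP θ β p b tp bc n ⌊δ * n⌋₊ x).I =
      (shp p (mks p b tp) n ⌊δ * n⌋₊ x.1 x.2).I := fun x => frowJ_I
  have hU : (frP θ β p S₀ b tp bc).U (rowS θ) δ n =
      uI (fun x : Fin l × Fin ((mks p b tp).m + 1) => shp p (mks p b tp) n ⌊δ * n⌋₊ x.1 x.2) :=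
    uI_of (θ := θ) (r := fun x : Fin l × Fin 3 => rP θ β p b tp bc n ⌊δ * n⌋₊ x) hI
  have hl : 0 < l := Nat.pos_of_ne_zero (NeZero.ne l)
  obtain ⟨-, -, -, c4, b5⟩ := Enl.gn_big H.hQ H.hg H.hδg H.hn hl
  rw [hU, mem_uI] at hv
  obtain ⟨x, hx⟩ := hv
  rw [shp_I] at hx
  have h2 := row_mem H.hp H.hN (rows_le (p := p) H.hQ H.hg H.hδ H.hδg H.hn x) hx
  omega

omit [NeZero l] in
theorem enl_box (hp : IsPolygon p) (hD : Encloses p S₀) (hN : Nrm p) (hn : 0 < n) {v : Pt}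
    (hv : v ∈ enl S₀ n) : (0 ≤ v.1 ∧ v.1 ≤ bM p * n) ∧ 0 ≤ v.2 ∧ v.2 ≤ bM p * n := by
  have h := enl_mem hp hD hN hn hv
  omega

theorem memFre {Φ : FrS Row} {G m R₀ : ℤ} {v : Pt} : v ∈ Fre Φ θ S₀ δ n G r z m R₀ ↔
    (((v ∈ Bq 0 R₀ ∧ v ∉ Φ.U (rowS θ) δ n) ∧ v ∉ enl S₀ n) ∧ v ∉ Φ.hB δ n G) ∧
      v ∉ LQ r z (-m) m 0 (3 * m) := by
  unfold Fre
  rw [Finset.mem_sdiff, Finset.mem_sdiff, Finset.mem_sdiff, Finset.mem_sdiff]

theorem lc_out' (r : Fin 4) (z : Pt) : lc r z 0 1 = z + E6.dir (r - 1) := by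
  fin_cases r <;> ext <;> simp [lc, E6.dir] <;> rfl

theorem ql_TO {I : Finset Pt} {a : Ed → Bool → ℝ} {B : Set Pt} : QL (QX.TO θ I a B) := by
  classical
  have h := Vale.Agent.P167.H398.Q.ql_prod_loops θ I a (fun ℓ => ¬ QX.VisL B ℓ)
  unfold QX.TO
  convert h

end

theorem ql_ind {f : Cfg → ℝ} (h : QL f) : QL ({ω | f ω ≠ 0}.indicator (1 : Cfg → ℝ)) := by
  classical
  refine (h.comp fun x => if x ≠ 0 then (1 : ℝ) else 0).congr fun ω _ => ?_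
  by_cases h1 : f ω ≠ 0
  · rw [if_pos h1, Set.indicator_of_mem (show ω ∈ {ω | f ω ≠ 0} from h1)]
    rfl
  · rw [if_neg h1, Set.indicator_of_notMem (show ω ∉ {ω | f ω ≠ 0} from h1)]

theorem rg_sq {r₁ : ℤ} : ∀ Y ∈ rg z r₁ (2 * r₁), sq Y ⊆ (↑(rF z r₁) : Set Pt) := by
  intro Y hY v hv
  rw [mem_coe, mrF]
  simp only [rg, List.mem_cons, List.not_mem_nil, or_false] at hY
  obtain ⟨h1, h2, h3, h4⟩ := hv
  rcases hY with rfl | rfl | rfl | rfl <;> dsimp only at h1 h2 h3 h4 <;> omega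

/-- The numbers. -/
theorem scal {κ' ε c : ℝ} (hκ' : 0 < κ') (hε : 0 < ε) (κ M : ℕ) (hc : 0 < c)
    (hκc : 2000 * κ' ≤ c) : ∃ (ε' : ℝ) (κ₂ : ℕ), 0 < ε' ∧ ∀ s0 : ℤ, ∃ n₀ : ℕ, ∀ n : ℕ, n₀ ≤ n →
      1 ≤ n ∧ s0 ≤ ⌊ε' * n⌋ ∧ ⌊ε' * n⌋ ≤ ⌊4 * κ' * n⌋ ∧ ⌊ε' * n⌋ ≤ ⌊ε * n⌋ ∧ ⌊ε' * n⌋ ≤ n ∧
      κ * ⌊ε * n⌋ ≤ κ₂ * ⌊ε' * n⌋ ∧ 4 * ⌊4 * κ' * n⌋ ≤ κ₂ * ⌊ε' * n⌋ ∧
      4 * (M * n : ℤ) ≤ κ₂ * ⌊ε' * n⌋ ∧ 1 ≤ ⌊4 * κ' * n⌋ ∧ (4 * ⌊4 * κ' * n⌋ : ℝ) ≤ c / 16 * n ∧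
      (16 * (⌊4 * κ' * n⌋ + 2) : ℝ) ≤ c / 16 * n := by
  obtain ⟨ε', he⟩ : ∃ ε' : ℝ, ε' = min ε (min κ' 1) := ⟨_, rfl⟩
  have he0 : 0 < ε' := by rw [he]; positivity
  have he1 : ε' ≤ ε := by rw [he]; exact min_le_left _ _
  have he2 : ε' ≤ κ' := by rw [he]; exact (min_le_right _ _).trans (min_le_left _ _)
  have he3 : ε' ≤ 1 := by rw [he]; exact (min_le_right _ _).trans (min_le_right _ _)
  obtain ⟨κ₂, hκ₂⟩ := exists_nat_ge (2 * (κ * ε + 16 * κ' + 4 * M) / ε')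
  refine ⟨ε', κ₂, he0, fun s0 => ?_⟩
  obtain ⟨n₀, hn₀⟩ := exists_nat_ge ((|(s0 : ℝ)| + 2 + 1000 * κ') / ε' + 1 + 1 / κ' + 1000 / c)
  refine ⟨n₀, fun n hn => ?_⟩
  have hn' : (n₀ : ℝ) ≤ n := by exact_mod_cast hn
  have p1 : 0 ≤ (|(s0 : ℝ)| + 2 + 1000 * κ') / ε' := by positivity
  have p2 : 0 ≤ 1 / κ' := by positivity
  have p3 : 0 ≤ 1000 / c := by positivity
  have q1 : 1 ≤ (n : ℝ) := by linarith
  have q2 : |(s0 : ℝ)| + 2 ≤ ε' * n := by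
    have : (|(s0 : ℝ)| + 2 + 1000 * κ') / ε' ≤ n := by linarith
    rw [div_le_iff₀ he0] at this
    linarith
  have q3 : 1 ≤ κ' * n := by
    have : 1 / κ' ≤ n := by linarith
    rw [div_le_iff₀ hκ'] at this
    linarith
  have q4 : 1000 ≤ c * n := by
    have : 1000 / c ≤ n := by linarith
    rw [div_le_iff₀ hc] at this
    linarith
  have q5 := le_abs_self (s0 : ℝ)
  have q6 := abs_nonneg (s0 : ℝ)
  have f1 := Int.sub_one_lt_floor (ε' * n)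
  have f2 := Int.floor_le (ε * n)
  have f3 := Int.floor_le (4 * κ' * n)
  have key : κ * ε * n + 16 * κ' * n + 4 * M * n ≤ κ₂ * (⌊ε' * n⌋ : ℝ) := by
    rw [div_le_iff₀ he0] at hκ₂
    have h1 : ε' * n / 2 ≤ (⌊ε' * n⌋ : ℝ) := by linarith
    have h2 : (κ₂ : ℝ) * (ε' * n / 2) ≤ κ₂ * (⌊ε' * n⌋ : ℝ) :=
      mul_le_mul_of_nonneg_left h1 (Nat.cast_nonneg _)
    have h3 : (2 * (κ * ε + 16 * κ' + 4 * M)) * n ≤ (κ₂ * ε') * n :=
      mul_le_mul_of_nonneg_right hκ₂ (by linarith)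
    linarith
  have z1 : 0 ≤ κ * ε * (n : ℝ) := by positivity
  have z2 : 0 ≤ 16 * κ' * (n : ℝ) := by positivity
  have z3 : 0 ≤ 4 * (M : ℝ) * (n : ℝ) := by positivity
  refine ⟨by exact_mod_cast q1, ?_, Int.floor_le_floor ?_, Int.floor_le_floor ?_, ?_, ?_, ?_, ?_,
    ?_, ?_, ?_⟩
  · rw [Int.le_floor]
    linarith
  · have := mul_le_mul_of_nonneg_right he2 (zero_le_one.trans q1)
    linarith
  · exact mul_le_mul_of_nonneg_right he1 (zero_le_one.trans q1)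
  · have h1 : ε' * n ≤ n := mul_le_of_le_one_left (zero_le_one.trans q1) he3
    have h2 : (⌊ε' * n⌋ : ℝ) ≤ n := (Int.floor_le _).trans h1
    exact_mod_cast h2
  · have h1 : (κ : ℝ) * ⌊ε * n⌋ ≤ κ * (ε * n) := mul_le_mul_of_nonneg_left f2 (Nat.cast_nonneg _)
    have h2 : (κ : ℝ) * ⌊ε * n⌋ ≤ κ₂ * (⌊ε' * n⌋ : ℝ) := by linarith
    exact_mod_cast h2
  · have h2 : (4 : ℝ) * ⌊4 * κ' * n⌋ ≤ κ₂ * (⌊ε' * n⌋ : ℝ) := by linarith
    exact_mod_cast h2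
  · have h2 : 4 * ((M : ℝ) * n) ≤ κ₂ * (⌊ε' * n⌋ : ℝ) := by linarith
    exact_mod_cast h2
  · rw [Int.le_floor]
    push_cast
    linarith
  · have h1 := mul_le_mul_of_nonneg_right hκc (zero_le_one.trans q1)
    linarith
  · have h1 := mul_le_mul_of_nonneg_right hκc (zero_le_one.trans q1)
    linarith

/-- **(P2S) for the free and wired frames**, from the chain. -/
theorem p2s_P [NeZero l] (h1 : Ang θ) {P : Measure Cfg} (hP : IsLim (2 * Real.cos θ) P)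
    (hp : IsPolygon p) (hD : Encloses p S₀) (hN : Nrm p)
    (hb : b.Ok S₀) (h0 : 0 < tp) (ht1 : tp < 1)
    (ht : ∀ i : ℤ, ∀ y ∈ ({b.xl, b.xr, b.yb, b.yt} : Set ℝ), y ≠ i + tp ∧ y ≠ i - tp)
    (hbk : bc.Ok l (mks p b tp)) (hbc : bc = .free ∨ bc = .wired)
    (hCh : ChP θ β p S₀ b tp bc) :
    (frP θ β p S₀ b tp bc).P2Sg (rowS θ) (rowF h1.cos_pos.le) {true} θ P := by
  have hg := Vale.Agent.P167.N.H199.good_aeQ h1.pos.le h1 hP h1.pos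
  obtain ⟨g, hg0, hg1, hPN⟩ := polN_of hp hD hN hb h0 ht1 ht hbk
  obtain ⟨κc, hκc, hCh⟩ := hCh
  refine ⟨min κc (g / 2000), by positivity, fun κ' hκ' hκ'1 => ?_⟩
  have k1 : κ' < κc := hκ'1.trans_le (min_le_left _ _)
  have k2 : 2000 * κ' ≤ g := by
    have := hκ'1.trans_le (min_le_right _ _)
    linarith
  obtain ⟨N, κ, ε, gc, R₀, δc, hε, hgc, hδc, hCh⟩ := hCh κ' hκ' k1 (3 * (bM p + 3))
  obtain ⟨ε', κ₂, hε', hsc⟩ := scal hκ' hε κ (bM p + 3) hg0 k2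
  obtain ⟨c, s0, hc0, hc1, hs0, hX⟩ := hook_X h1.kit N κ₂
  obtain ⟨n₀, hn₀⟩ := hsc s0
  refine ⟨1 / c, min δc (g / 4), 1, by positivity, by positivity, one_pos, fun δ hδ hδ' => ?_⟩
  have d1 : δ < δc := hδ'.trans_le (min_le_left _ _)
  have d2 : 4 * δ ≤ g := by
    have := hδ'.trans_le (min_le_right _ _)
    linarith
  filter_upwards [hCh δ hδ d1, hPN g hg0 le_rfl δ hδ d2, eventually_ge_atTop n₀] with n nC H nn
  obtain ⟨n1, n2, n3, n4, n5, n6, n7, n8, n9, n10, n11⟩ := hn₀ n nn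
  intro σ hσ R₃ hR₃ _
  obtain ⟨X, L, j, hM, hc, hlen, hok, hsd⟩ := nC
  obtain ⟨m, hm⟩ : ∃ m : ℕ, (m : ℤ) = ⌊4 * κ' * n⌋ := ⟨⌊4 * κ' * n⌋.toNat, by omega⟩
  rw [← hm] at n3 n7 n9 n10 n11 hM hok ⊢
  obtain ⟨z, hz⟩ : ∃ z, z = zP p n tp bc := ⟨_, rfl⟩
  obtain ⟨r, hr⟩ : ∃ r, r = pdir p 0 := ⟨_, rfl⟩
  obtain ⟨U, hU⟩ : ∃ U, U = (frP θ β p S₀ b tp bc).U (rowS θ) δ n := ⟨_, rfl⟩
  have hF : Flat3 r z (4 * m) U (enl S₀ n) := by
    rw [hr, hz, hU]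
    exact flat_zP H (by push_cast; exact n10)
  have hTj : (frP θ β p S₀ b tp bc).Tj (rowS θ) (rowF h1.cos_pos.le) {true} δ n m =
      TK U z m := by
    rw [hU, hz]
    exact funext fun ω => Tj_frP H hbc h1.cos_pos.le h1.pos m ω
  have hsc : 0 < l := Nat.pos_of_ne_zero (NeZero.ne l)
  -- positions
  obtain ⟨B, hB⟩ : ∃ B : ℤ, B = bM p * n := ⟨_, rfl⟩
  obtain ⟨v₀, hv₀, w₀⟩ := near_row (flat_row hF (k := 1) le_rfl (by omega))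
  have hn0 : 0 < n := by omega
  have b0 := uP_box (θ := θ) (β := β) H (hU ▸ hv₀)
  have hUb : ∀ w ∈ enl S₀ n ∪ U, (0 ≤ w.1 ∧ w.1 ≤ B) ∧ 0 ≤ w.2 ∧ w.2 ≤ B := by
    intro w hw
    rw [hB]
    rcases mem_union.1 hw with hw | hw
    · exact enl_box hp hD hN hn0 hw
    · exact uP_box (θ := θ) (β := β) H (hU ▸ hw)
  rw [← hB] at b0
  obtain ⟨r₁, hr₁⟩ : ∃ r₁ : ℤ, r₁ = B + 3 * n := ⟨_, rfl⟩
  have hr₁' : ((bM p + 3 : ℕ) : ℤ) * n = r₁ := by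
    rw [hr₁, hB]
    push_cast
    ring
  rw [hr₁'] at n8
  have hI : ∀ w ∈ enl S₀ n ∪ U, nm (w - z) + 2 ≤ r₁ := by
    intro w hw
    have h2 := hUb w hw
    have h3 : nm (w - z) ≤ B + 1 := by
      rw [H632.nm_le]
      simp only [Prod.fst_sub, Prod.snd_sub]
      omega
    omega
  -- the squares
  obtain ⟨A, hA⟩ : ∃ A, A = Fre (frP θ β p S₀ b tp bc) θ S₀ δ n ⌊gc * n⌋ r z m ⌊R₀ * n⌋ := ⟨_, rfl⟩
  rw [← hr, ← hz, ← hA] at hok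
  rw [← hr, ← hz] at hM
  have hAm : ∀ v ∈ A, v ∈ Bq 0 ⌊R₀ * n⌋ ∧ v ∉ U ∧ v ∉ enl S₀ n ∧
      v ∉ LQ r z (-m) m 0 (3 * m) := by
    intro v hv
    rw [hA, memFre, ← hU] at hv
    exact ⟨hv.1.1.1.1, hv.1.1.1.2, hv.1.1.2, hv.2⟩
  obtain ⟨Rb, hRb1, hRb2⟩ : ∃ Rb : ℤ, ⌊R₀ * n⌋ ≤ Rb ∧ 3 * r₁ ≤ Rb :=
    ⟨max ⌊R₀ * n⌋ (3 * r₁), le_max_left _ _, le_max_right _ _⟩
  have hLQ : ∀ v ∈ LQ r z (-m) (4 * m) 0 (3 * m), v ∉ U ∧ v ∉ enl S₀ n := fun v hv =>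
    flat_out hF (by omega) le_rfl hv
  have hmn : 4 * (m : ℤ) ≤ n := by
    have h2 : (4 * (m : ℝ)) ≤ n := by
      push_cast at n10
      have h3 : g / 16 * n ≤ n := by
        have : (0 : ℝ) ≤ n := Nat.cast_nonneg n
        nlinarith
      linarith
    exact_mod_cast h2
  have hRF : ∀ v ∈ rF z r₁, v ∉ U ∧ v ∉ enl S₀ n := by
    intro v hv
    rw [mrF] at hv
    constructor
    · intro h2
      have h3 := hI v (mem_union_right _ h2)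
      have h4 := H632.nm_le.1 (le_refl (nm (v - z)))
      simp only [Prod.fst_sub, Prod.snd_sub] at h4
      omega
    · intro h2
      have h3 := hI v (mem_union_left _ h2)
      have h4 := H632.nm_le.1 (le_refl (nm (v - z)))
      simp only [Prod.fst_sub, Prod.snd_sub] at h4
      omega
  have hTo : ∀ v ∈ (A ∪ rF z r₁) ∪ LQ r z (-m) (4 * m) 0 (3 * m), v ∉ U ∧ v ∉ enl S₀ n := by
    intro v hv
    rcases mem_union.1 hv with hv | hv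
    · rcases mem_union.1 hv with hv | hv
      · exact ⟨(hAm v hv).2.1, (hAm v hv).2.2.1⟩
      · exact hRF v hv
    · exact hLQ v hv
  have hmb : ∀ {v : Pt} {R : ℤ}, v ∈ Bq 0 R ↔ (-R ≤ v.1 ∧ v.1 < R) ∧ -R ≤ v.2 ∧ v.2 < R := by
    intro v R
    rw [mBq]
    simp
  have hpar : (z.1 + z.2) % 2 = pr (cz z) := cz_pr z
  unfold FrS.E
  rw [hTj, ← hU]
  refine ef_lift (D := Bq 0 Rb \ U) (M := 1) h1.kit hP hg disjoint_sdiff_self_left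
    (W := fun ω => (PE (cz z) z ((A ∪ rF z r₁) ∪ LQ r z (-m) (4 * m) 0 (3 * m)) (lst X L) j
          (rg z r₁ (2 * r₁))).indicator 1 ω) (by positivity) ⟨_, TK_loc U z m⟩
    ⟨_, pe_loc subset_rfl fun Y hY => (rg_sq Y hY).trans (coe_subset.2
      (subset_union_right.trans subset_union_left))⟩
    ((QL.of_loc (TK_loc U z m)).mul (ql_ind ql_TO)) (fun ω _ => ?_) (fun ζ hζ _ => ?_)
    fun ω hω hωσ => ?_
  · rw [abs_of_nonneg (mul_nonneg (TK_nonneg _ _ _ _) (ind_nonneg _ _))]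
    exact mul_le_one₀ (TK_le_one _ _ _ _) (ind_nonneg _ _) (ind_le_one _ _)
  · have key := hX (r := r) (e := cz z) (z := z) (m := m) (s := ⌊ε' * n⌋) (r₁ := r₁) (A := A)
      (D := Bq 0 Rb \ U) (U := U) (η := ζ) (W := fun _ => 1) (X := X) (L := L) (j := j) hζ hpar n2
      n3 n7 (by omega) n8 (by omega) (flat_row hF (by omega) (by omega))
      (fun v hv => mem_sdiff.2 ⟨hmb.2 ?_, (hLQ v hv).1⟩)
      (fun v hv => mem_sdiff.2 ⟨hmb.2 ?_, (hAm v hv).2.1⟩)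
      (fun v hv => mem_sdiff.2 ⟨hmb.2 ?_, (hRF v hv).1⟩)
      (Finset.disjoint_left.2 fun v hv => (hAm v hv).2.2.2) hM hc hlen
      (fun Y hY => ok_s (hok Y hY) n4 n6) (fun _ => zero_le_one) (fun _ _ _ => rfl)
    · simp only [one_mul] at key
      rw [div_mul_eq_mul_div, one_mul, le_div_iff₀ hc0, mul_comm]
      exact key
    · have h2 := mBq.1 (lq_bq (k := 4 * m) (lq_sub (by omega) (by omega) (by omega) (by omega) hv))
      omega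
    · have h2 := hmb.1 (hAm v hv).1
      omega
    · have h2 := mrF.1 hv
      omega
  · by_cases h2 : ω ∈ PE (cz z) z ((A ∪ rF z r₁) ∪ LQ r z (-m) (4 * m) 0 (3 * m)) (lst X L) j
        (rg z r₁ (2 * r₁))
    · have h3 : ∀ t ∈ Sd (pr (cz z)) (lst X L) j, 2 * r₁ + 2 ≤ nm (t - z) := by
        intro t htt
        have h4 : ((3 * (bM p + 3) : ℕ) * n : ℤ) ≤ nm t := hsd _ htt
        have h5 : ((3 * (bM p + 3) : ℕ) * n : ℤ) = 3 * r₁ := by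
          rw [← hr₁']
          push_cast
          ring
        rw [h5, H632.le_nm] at h4
        rw [H632.le_nm]
        simp only [Prod.fst_sub, Prod.snd_sub]
        omega
      have hfr : (frP θ β p S₀ b tp bc).Frz (rowS θ) δ n ω :=
        (FrS.frz_iff hσ).2 (by rw [← hU]; exact hωσ)
      have h4 := to_frP (θ := θ) (β := β) hp hD hN H.hQ H.hg hδ H.hδg H.hn hbc h1.sin_pos.ne'
        h1.cos_pos.ne' hR₃ hω hfr (by
          rw [← hU, show zXP p n tp bc = z from by rw [hz]; exact (lc_out' _ _).symm]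
          exact armX_of hpar hI (by omega) (fun v hv h5 => by
            rcases mem_union.1 h5 with h5 | h5
            · exact (hTo v hv).2 h5
            · exact (hTo v hv).1 h5) h3 h2)
      have h5 : ω ∈ AZ (cz z) U z m := by
        obtain ⟨⟨t, t1, t2⟩, -⟩ := h2
        refine az_of_path (t := t) (Pw.mono ?_ t2) (by have := h3 t t1; omega)
        exact fun v hv => ⟨hv.1, (hTo v (mem_coe.1 hv.2)).1⟩
      rw [Set.indicator_of_mem h2]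
      show (1 : ℝ) ≤ TK U z m ω * _
      rw [Set.indicator_of_mem (show ω ∈ {ω | (frP θ β p S₀ b tp bc).TO (rowS θ) θ δ n R₃ ω ≠ 0}
        from h4)]
      unfold TK
      rw [Set.indicator_of_mem h5]
      simp
    · rw [Set.indicator_of_notMem h2]
      exact mul_nonneg (TK_nonneg _ _ _ _) (ind_nonneg _ _)

end Vale.Agent.P167.H433
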