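import Vale.Agent.P167.N.BAR.Low
import Vale.Agent.P167.H640.Nb
import Vale.Agent.P167.H166N.Tube

/-!
# P167, `0 < q < 1`, (P2S): a ring of four rectangles

`nx_rg`: four rectangles around `z`, crossed by the colour `e`; then the other colour does not cross the
annulus.
-/

set_option autoImplicit false

namespace Vale.Agent.P167.H433

open Finset Vale.Agent.P167 Vale.Agent.P167.FK Vale.Agent.P167.H871 Vale.Agent.P167.H632
  Vale.Agent.P167.H192.TA
open Vale.Agent.P145.FB (PStep PConn)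
open Vale.Agent.P153.Topo (Rect mem_rect)
open Vale.Agent.P167.N (Crs)
open Vale.Agent.P167.N.BAR (Sd sq)
open Vale.Agent.P167.H166N (NX)
open Vale.Agent.P167.H704 (cut2 col_inc row_inc Hc Vc)

variable {z : Pt} {e : Bool} {ω : Cfg} {r R : ℤ}

/-- The four rectangles of the ring. -/
def rg (z : Pt) (r R : ℤ) : List Crs :=
  [⟨true, z.1 - R, z.1 + R, z.2 + r, z.2 + R⟩, ⟨true, z.1 - R, z.1 + R, z.2 - R, z.2 - r⟩,
    ⟨false, z.1 + r, z.1 + R, z.2 - R, z.2 + R⟩, ⟨false, z.1 - R, z.1 - r, z.2 - R, z.2 + R⟩]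

theorem nx_rg (hrR : r < R) (h : ∀ X ∈ rg z r R, ω ∈ X.Ev e) : ω ∈ NX e z r R := by
  have h1 : ω ∈ Hc e (z.1 - R) (z.1 + R) (z.2 + r) (z.2 + R) :=
    h ⟨true, z.1 - R, z.1 + R, z.2 + r, z.2 + R⟩ (by simp [rg])
  have h2 : ω ∈ Hc e (z.1 - R) (z.1 + R) (z.2 - R) (z.2 - r) :=
    h ⟨true, z.1 - R, z.1 + R, z.2 - R, z.2 - r⟩ (by simp [rg])
  have h3 : ω ∈ Vc e (z.1 + r) (z.1 + R) (z.2 - R) (z.2 + R) :=
    h ⟨false, z.1 + r, z.1 + R, z.2 - R, z.2 + R⟩ (by simp [rg])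
  have h4 : ω ∈ Vc e (z.1 - R) (z.1 - r) (z.2 - R) (z.2 + R) :=
    h ⟨false, z.1 - R, z.1 - r, z.2 - R, z.2 + R⟩ (by simp [rg])
  intro y y' hy hyr hyR hP
  rw [cs_compl] at hP
  have hpar : (y.1 + y.2) % 2 = pr (!e) := by rw [pr_not, hy]
  have hl := nm_le.1 hyr.le
  have hz := nm_le.1 hyR.le
  have hz' := le_nm.1 hyR.ge
  simp only [Prod.fst_sub, Prod.snd_sub] at hz hz' hl
  have key : ∀ v ∈ (Set.univ ∩ an z r R : Set Pt), z.1 - R ≤ v.1 ∧ v.1 ≤ z.1 + R ∧ z.2 - R ≤ v.2 ∧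
      v.2 ≤ z.2 + R := by
    rintro v ⟨-, v1, v2⟩
    have v3 := nm_le.1 v2
    simp only [Prod.fst_sub, Prod.snd_sub] at v3
    omega
  rcases (by omega : y'.2 = z.2 + R ∨ y'.2 = z.2 - R ∨ y'.1 = z.1 + R ∨ y'.1 = z.1 - R) with
    h5 | h5 | h5 | h5
  · obtain ⟨w, w', g1, g2, g0, g3, -⟩ := cut2 (fun v : ℤ × ℤ => v.2) (r := z.2 + r) (R := z.2 + R)
      row_inc (by omega) hP (by omega) (by omega)
    refine Vale.Agent.P167.H640.Nb.xcl (e := !e) (ω := ω) (by rw [Bool.not_not]; exact h1)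
      ⟨w, w', by omega, by omega, by rw [← g0.parity, hpar], ?_⟩
    refine g3.mono subset_rfl ?_
    rintro v ⟨v1, v3, v4⟩
    have := key v v1
    rw [mem_rect]
    omega
  · obtain ⟨w, w', g1, g2, g0, g3, -⟩ := cut2 (fun v : ℤ × ℤ => - v.2) (r := r - z.2)
      (R := R - z.2) (fun u v h => by have := h.symm.2.1; have := h.2.1; omega) (by omega) hP
      (by omega) (by omega)
    refine Vale.Agent.P167.H640.Nb.xcl (e := !e) (ω := ω) (by rw [Bool.not_not]; exact h2)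
      ⟨w', w, by omega, by omega, by rw [← g3.parity, ← g0.parity, hpar], ?_⟩
    refine g3.symm.mono subset_rfl ?_
    rintro v ⟨v1, v3, v4⟩
    have := key v v1
    rw [mem_rect]
    omega
  · obtain ⟨w, w', g1, g2, g0, g3, -⟩ := cut2 (fun v : ℤ × ℤ => v.1) (r := z.1 + r) (R := z.1 + R)
      col_inc (by omega) hP (by omega) (by omega)
    refine Vale.Agent.P167.H640.Nb.xcl (e := e) (ω := ω)
      ⟨w, w', by omega, by omega, by rw [← g0.parity, hpar], ?_⟩ h3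
    refine g3.mono subset_rfl ?_
    rintro v ⟨v1, v3, v4⟩
    have := key v v1
    rw [mem_rect]
    omega
  · obtain ⟨w, w', g1, g2, g0, g3, -⟩ := cut2 (fun v : ℤ × ℤ => - v.1) (r := r - z.1)
      (R := R - z.1) (fun u v h => by have := h.symm.1; have := h.1; omega) (by omega) hP
      (by omega) (by omega)
    refine Vale.Agent.P167.H640.Nb.xcl (e := e) (ω := ω)
      ⟨w', w, by omega, by omega, by rw [← g3.parity, ← g0.parity, hpar], ?_⟩ h4
    refine g3.symm.mono subset_rfl ?_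
    rintro v ⟨v1, v3, v4⟩
    have := key v v1
    rw [mem_rect]
    omega

/-- The rectangles of the ring. -/
theorem rg_ok {z : Pt} {r R s : ℤ} {κ : ℕ} {A : Finset Pt} (hr : 0 ≤ r) (hrR : r ≤ R)
    (h1 : s ≤ R - r) (h2 : 2 * R ≤ κ * s)
    (hA : ∀ v : Pt, z.1 - R ≤ v.1 → v.1 < z.1 + R → z.2 - R ≤ v.2 → v.2 < z.2 + R →
      (z.1 + r ≤ v.1 ∨ v.1 < z.1 - r ∨ z.2 + r ≤ v.2 ∨ v.2 < z.2 - r) → v ∈ A) :
    ∀ X ∈ rg z r R, X.Ok s κ A := by
  intro X hX
  simp only [rg, List.mem_cons, List.not_mem_nil, or_false] at hX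
  rcases hX with rfl | rfl | rfl | rfl
  · exact Crs.ok_H (by omega) (by omega) (by omega) (by omega) fun v g1 g2 g3 g4 =>
      hA v (by omega) (by omega) (by omega) (by omega) (by omega)
  · exact Crs.ok_H (by omega) (by omega) (by omega) (by omega) fun v g1 g2 g3 g4 =>
      hA v (by omega) (by omega) (by omega) (by omega) (by omega)
  · exact Crs.ok_V (by omega) (by omega) (by omega) (by omega) fun v g1 g2 g3 g4 =>
      hA v (by omega) (by omega) (by omega) (by omega) (by omega)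
  · exact Crs.ok_V (by omega) (by omega) (by omega) (by omega) fun v g1 g2 g3 g4 =>
      hA v (by omega) (by omega) (by omega) (by omega) (by omega)

end Vale.Agent.P167.H433
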