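import Vale.Agent.P167.H433.PsR
import Vale.Agent.P167.H433.PsRing
import Vale.Agent.P167.N.Base.Crs
import Vale.Agent.P167.N.NET.KitV

/-!
# P167, `0 < q < 1`, (P2S): an arm is continued along a chain of rectangles

`pn`: a flat boundary site `z`, its arm of radius `m`, a chain of rectangles which starts next to `z`,
further rectangles `G` (a ring). Given the arm and any factor which does not read these squares: with a
probability bounded below `z` is joined to the end of the chain and the rectangles `G` are crossed.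
-/

set_option autoImplicit false

namespace Vale.Agent.P167.H433

open Finset Vale.Agent.P167 Vale.Agent.P167.FK Vale.Agent.P167.FKA Vale.Agent.P167.H871
  Vale.Agent.P167.H632 Vale.Agent.P167.H192.TA Vale.Agent.P167.N.NET Vale.Agent.P167.H718
open Vale.Agent.P145.FB (PStep PConn)
open Vale.Agent.P153.Topo (Rect mem_rect)
open Relation (ReflTransGen)
open Vale.Agent.P167.H262 (Rsq mem_Rsq)
open Vale.Agent.P167.N (Crs Kit crs_ex)
open Vale.Agent.P167.N.BAR (Sd sq Mt Ch lst lst_mem ev_iff pw_rect mt_join ch_join)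
open Vale.Agent.P167.H760 (Tr)
open Vale.Agent.P167.H704 (congr_rect)

variable {Q : ℝ} {z : Pt} {e : Bool} {D A : Finset Pt} {η ω : Cfg} {F : Cfg → ℝ} {r : Fin 4}
  {a b p q u v s : ℤ} {m κ : ℕ} {X R : Crs} {L G : List Crs}

/-! ### local coordinates of squares -/

/-- The first local coordinate of a square. -/
def lcu (r : Fin 4) (z w : Pt) : ℤ := ((rT r z).Q.symm w).1 - z.1

/-- The second local coordinate of a square. -/
def lcv (r : Fin 4) (z w : Pt) : ℤ := ((rT r z).Q.symm w).2 - z.2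

theorem mLQ {w : Pt} : w ∈ LQ r z a b p q ↔ (a ≤ lcu r z w ∧ lcu r z w < b) ∧
    p ≤ lcv r z w ∧ lcv r z w < q := by
  obtain ⟨w, rfl⟩ := (rT r z).Q.surjective w
  rw [rT_LQ, mem_Rsq]
  unfold lcu lcv
  rw [Equiv.symm_apply_apply]
  omega

theorem sqLR (d : Bool) : sq (LR r z d a b p q) = ↑(LQ r z a b p q) := by
  ext w
  rw [mem_coe, memLQ]
  fin_cases r <;> rfl

/-! ### crossings -/

theorem ev_congr {ω' : Cfg} (h : ∀ v ∈ sq X, ω v = ω' v) (hω : ω ∈ X.Ev e) : ω' ∈ X.Ev e := by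
  obtain ⟨d, a, b, p, q⟩ := X
  cases d
  · obtain ⟨s, t, h1, h2, h3, h4⟩ := hω
    refine ⟨s, t, h1, h2, h3, congr_rect (fun v hv m1 m2 m3 m4 => ?_) h4⟩
    show ω' v = e
    rw [← h v ⟨m1, m2, m3, m4⟩]
    exact hv
  · obtain ⟨s, t, h1, h2, h3, h4⟩ := hω
    refine ⟨s, t, h1, h2, h3, congr_rect (fun v hv m1 m2 m3 m4 => ?_) h4⟩
    show ω' v = e
    rw [← h v ⟨m1, m2, m3, m4⟩]
    exact hv

theorem conn_sq {F : Set Pt} {s t : Pt} (hs : s ∈ Rect X.a X.b X.p X.q) (h : Pw (F ∩ sq X) s t) :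
    PConn F (Rect X.a X.b X.p X.q) s t := by
  refine ⟨hs, ?_⟩
  induction h with
  | refl => exact ReflTransGen.refl
  | @tail u w _ huw ih =>
    have h1 := huw.1
    have h2 := huw.2.1
    obtain ⟨h3, h4, h5, h6, h7⟩ := huw.2.2
    dsimp only at h4 h5 h6 h7
    refine ih.tail ⟨⟨h1, h2, h3⟩, ?_⟩
    rw [mem_rect]
    omega

theorem sd_rect {c : ℤ} {b : Bool} {s : Pt} (h : s ∈ Sd c X b) : s ∈ Rect X.a X.b X.p X.q := by
  obtain ⟨-, h1, h2, h3, h4, -⟩ := h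
  rw [mem_rect]
  omega

theorem ok_mono {B : Finset Pt} (h : A ⊆ B) (hX : X.Ok s κ A) : X.Ok s κ B :=
  ⟨hX.1, hX.2.1, hX.2.2.1, fun v h1 h2 h3 h4 => h (hX.2.2.2 v h1 h2 h3 h4)⟩

theorem ok_sq (hX : X.Ok s κ A) : sq X ⊆ (↑A : Set Pt) :=
  fun v hv => mem_coe.2 (hX.2.2.2 v hv.1 hv.2.1 hv.2.2.1 hv.2.2.2)

/-- Rectangles in local coordinates. -/
theorem ok_LR {d : Bool} (hab : a ≤ b) (hpq : p ≤ q)
    (h : if d then s ≤ q - p ∧ b - a ≤ κ * s else s ≤ b - a ∧ q - p ≤ κ * s)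
    (hA : LQ r z a b p q ⊆ A) : (LR r z d a b p q).Ok s κ A := by
  have h4 : ∀ v : Pt, (LR r z d a b p q).a ≤ v.1 → v.1 < (LR r z d a b p q).b →
      (LR r z d a b p q).p ≤ v.2 → v.2 < (LR r z d a b p q).q → v ∈ A := by
    intro v h1 h2 h3 h4
    have h5 : v ∈ sq (LR r z d a b p q) := ⟨h1, h2, h3, h4⟩
    rw [sqLR] at h5
    exact hA (mem_coe.1 h5)
  refine ⟨?_, ?_, ?_, h4⟩
  · fin_cases r <;> simp [LR] <;> omega
  · fin_cases r <;> simp [LR] <;> omega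
  · clear h4
    cases d <;> fin_cases r <;> simp [LR] at h ⊢ <;> omega

/-- `z` is joined to the side `j` of the rectangle inside of `T`, and the rectangles `G` are crossed. -/
def PE (e : Bool) (z : Pt) (T : Finset Pt) (Y : Crs) (j : Bool) (G : List Crs) : Set Cfg :=
  {ω | (∃ t ∈ Sd (pr e) Y j, Pw (cs e ω ∩ ↑T) z t) ∧ ∀ Z ∈ G, ω ∈ Z.Ev e}

/-- The join of the hook and the chain. -/
theorem pe_of {T : Finset Pt} {j : Bool} (hR : R.a ≤ R.b ∧ R.p ≤ R.q) (hRT : sq R ⊆ (↑T : Set Pt))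
    (hK : D ⊆ T) (hM : Mt R X) (hc : Ch X L)
    (hL : ∀ Y ∈ X :: L, Y.a ≤ Y.b ∧ Y.p ≤ Y.q ∧ sq Y ⊆ (↑T : Set Pt) ∧ ω ∈ Y.Ev e)
    (hG : ∀ Y ∈ G, ω ∈ Y.Ev e) (h : ω ∈ HR e z D R) : ω ∈ PE e z T (lst X L) j G := by
  refine ⟨?_, hG⟩
  obtain ⟨x, hx, y, hy, h1, h2⟩ := h
  obtain ⟨a1, a2, a3, a4⟩ := hL X List.mem_cons_self
  obtain ⟨b1, b2, b3, b4⟩ := hL _ (lst_mem L X)
  obtain ⟨s, hs, t, ht, h3⟩ := ev_iff a1 a2 a4
  obtain ⟨s', hs', t', ht', h4, h5⟩ := ch_join L X hc hL s hs t ht h3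
  have h6 := mt_join hR ⟨a1, a2⟩ hRT a3 hM hx hy hs ht (conn_sq (sd_rect hx) h1) h3
  have h7 : Pw (cs e ω ∩ (↑T : Set Pt)) z x :=
    Pw.mono (G := cs e ω ∩ (↑T : Set Pt)) (fun v hv => ⟨hv.1, hK hv.2⟩) h2
  have h8 : Pw (cs e ω ∩ (↑T : Set Pt)) s' t' :=
    Pw.mono (G := cs e ω ∩ (↑T : Set Pt)) (fun v hv => ⟨hv.1, b3 hv.2⟩) (pw_rect h5)
  cases j
  · exact ⟨s', hs', h7.trans (h6.trans h4)⟩
  · exact ⟨t', ht', (h7.trans (h6.trans h4)).trans h8⟩

/-- **The arm is continued along a chain.** -/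
theorem pn {Q : ℝ} (K : Kit Q) (n₀ κ : ℕ) : ∃ (c : ℝ) (s0 : ℤ), 0 < c ∧ c ≤ 1 ∧ 1 ≤ s0 ∧
    ∀ {r : Fin 4} {e : Bool} {z : Pt} {m : ℕ} {s : ℤ} {A D : Finset Pt} {η : Cfg} {W : Cfg → ℝ}
      {X : Crs} {L G : List Crs} {j : Bool}, Good η → (z.1 + z.2) % 2 = pr e → s0 ≤ s → s ≤ m →
      4 * (m : ℤ) ≤ κ * s → LQ r z (-m) (4 * m) 0 (3 * m) ⊆ D → A ⊆ D →
      Disjoint A (LQ r z (-m) m 0 (3 * m)) → Mt (LR r z true 0 (4 * m) (2 * m) (3 * m)) X →
      Ch X L → L.length + 1 + G.length ≤ n₀ → (∀ Y ∈ X :: (L ++ G), Y.Ok s κ A) →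
      (∀ ω, 0 ≤ W ω) → Ind (A ∪ LQ r z (-m) (4 * m) 0 (3 * m)) W →
      c * Ex Q D η (fun ω => W ω * (Arm e (LQ r z (-m) m 0 m) z m).indicator 1 ω) ≤
        Ex Q D η (fun ω => W ω * (PE e z (A ∪ LQ r z (-m) (4 * m) 0 (3 * m)) (lst X L) j
          G).indicator 1 ω) := by
  obtain ⟨c₁, s₁, h1, h1', hs1, hC⟩ := crs_ex K (n₀ + 1) κ
  obtain ⟨c₂, h2, h2', hH⟩ := hook_r K.pos K.le (vrs K.pos K.lt)
  refine ⟨c₂ * c₁, max s₁ 6, mul_pos h2 h1, mul_le_one₀ h2' h1.le h1', by omega, ?_⟩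
  intro r e z m s A D η W X L G j hη hz hs hsm hκ hLD hAD hdis hM hc hn hok hW0 hW
  obtain ⟨R, hR⟩ : ∃ R : Crs, R = LR r z true 0 (4 * m) (2 * m) (3 * m) := ⟨_, rfl⟩
  have hm6 : 6 ≤ m := by omega
  have hdis' : ∀ v ∈ A, v ∉ LQ r z (-m) m 0 (3 * m) := fun v hv =>
    Finset.disjoint_left.1 hdis hv
  -- the squares of the first rectangle
  have hRA : LQ r z 0 (4 * m) (2 * m) (3 * m) ⊆ LQ r z (-m) (4 * m) 0 (3 * m) := by
    intro v hv
    rw [mLQ] at *
    omega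
  have hRok : ∀ {B : Finset Pt}, LQ r z 0 (4 * m) (2 * m) (3 * m) ⊆ B → R.Ok s κ B := by
    intro B hB
    rw [hR]
    refine ok_LR (by omega) (by omega) ?_ hB
    rw [if_pos rfl]
    constructor <;> omega
  have hEv : ∀ {ω ω' : Cfg}, (∀ v ∈ A, ω' v = ω v) → ∀ Y ∈ X :: (L ++ G),
      (ω' ∈ Y.Ev e ↔ ω ∈ Y.Ev e) := by
    intro ω ω' h Y hY
    constructor
    · exact ev_congr fun v hv => h v (mem_coe.1 (ok_sq (hok Y hY) hv))
    · exact ev_congr fun v hv => (h v (mem_coe.1 (ok_sq (hok Y hY) hv))).symm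
  -- all rectangles
  have k1 := hC e s (R :: (X :: (L ++ G))) (A ∪ LQ r z 0 (4 * m) (2 * m) (3 * m)) D η
    (fun ω => W ω * (Arm e (LQ r z (-m) m 0 m) z m).indicator 1 ω) hη (by omega)
    (by
      simp only [List.length_cons, List.length_append]
      omega)
    (union_subset hAD (hRA.trans hLD))
    (fun Y hY => by
      rcases List.mem_cons.1 hY with rfl | hY
      · exact hRok subset_union_right
      · exact ok_mono subset_union_left (hok Y hY))
    (fun ω ω' h => by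
      have e1 : W ω = W ω' := hW ω ω' fun v hv => h v fun h3 => hv (by
        rcases mem_union.1 h3 with h3 | h3
        · exact mem_union_left _ h3
        · exact mem_union_right _ (hRA h3))
      have e2 : (Arm e (LQ r z (-m) m 0 m) z m).indicator (1 : Cfg → ℝ) ω =
          (Arm e (LQ r z (-m) m 0 m) z m).indicator 1 ω' := arm_loc ω ω' fun v hv => h v fun h3 => by
        have h4 := (mem_inter.1 hv).1
        rcases mem_union.1 h3 with h3 | h3
        · refine hdis' v h3 ?_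
          rw [mLQ] at *
          omega
        · rw [mLQ] at h3 h4
          omega
      show W ω * _ = W ω' * _
      rw [e1, e2])
    (fun ω => mul_nonneg (hW0 ω) (ind_nonneg _ _))
  -- the hook
  have k2 := hH (r := r) (e := e) (z := z) (m := m) (D := D) (η := η)
    (F := fun ω => W ω * {ω : Cfg | ∀ Y ∈ X :: (L ++ G), ω ∈ Y.Ev e}.indicator 1 ω) hm6 hη hz hLD
    (fun ω => mul_nonneg (hW0 ω) (ind_nonneg _ _))
    (fun ω ω' h => by
      have e1 : W ω' = W ω := hW ω' ω fun v hv => h v fun h3 => hv (mem_union_right _ (by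
        rw [mLQ] at *
        omega))
      have e2 : ω' ∈ {ω : Cfg | ∀ Y ∈ X :: (L ++ G), ω ∈ Y.Ev e} ↔
          ω ∈ {ω : Cfg | ∀ Y ∈ X :: (L ++ G), ω ∈ Y.Ev e} :=
        forall₂_congr fun Y hY => hEv (fun v hv => h v (hdis' v hv)) Y hY
      rw [e1]
      by_cases h3 : ω ∈ {ω : Cfg | ∀ Y ∈ X :: (L ++ G), ω ∈ Y.Ev e}
      · rw [Set.indicator_of_mem h3, Set.indicator_of_mem (e2.2 h3)]
        rfl
      · rw [Set.indicator_of_notMem h3, Set.indicator_of_notMem fun h4 => h3 (e2.1 h4)])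
  rw [← hR] at k2
  rw [mul_assoc]
  refine (mul_le_mul_of_nonneg_left (k1.trans (Ex_mono K.pos fun S _ => ?_)) h2.le).trans
    (k2.trans (Ex_mono K.pos fun S _ => ?_))
  · -- the crossings
    set ω := cf D η S
    by_cases h3 : ω ∈ {ω : Cfg | ∀ Y ∈ R :: (X :: (L ++ G)), ω ∈ Y.Ev e}
    · have h4 : ω ∈ {ω : Cfg | ∀ Y ∈ X :: (L ++ G), ω ∈ Y.Ev e} := fun Y hY =>
        h3 Y (List.mem_cons_of_mem _ hY)
      have h5 : ω ∈ PS e R := by
        have h6 := hRok subset_rfl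
        obtain ⟨s, hs, t, ht, h7⟩ := ev_iff h6.1 h6.2.1 (h3 R List.mem_cons_self)
        exact ⟨s, hs, t, ht, pw_rect h7⟩
      rw [Set.indicator_of_mem h3, Set.indicator_of_mem h4, Set.indicator_of_mem h5]
      simp only [Pi.one_apply, mul_one]
      exact le_rfl
    · rw [Set.indicator_of_notMem h3, mul_zero]
      exact mul_nonneg (mul_nonneg (mul_nonneg (hW0 _) (ind_nonneg _ _)) (ind_nonneg _ _))
        (ind_nonneg _ _)
  · set ω := cf D η S
    rw [mul_assoc]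
    refine mul_le_mul_of_nonneg_left ?_ (hW0 _)
    by_cases h3 : ω ∈ {ω : Cfg | ∀ Y ∈ X :: (L ++ G), ω ∈ Y.Ev e}
    · by_cases h4 : ω ∈ HR e z (LQ r z (-m) (4 * m) 0 (3 * m)) R
      · have h6 := hRok subset_rfl
        have h5 : ω ∈ PE e z (A ∪ LQ r z (-m) (4 * m) 0 (3 * m)) (lst X L) j G := by
          refine pe_of ⟨h6.1, h6.2.1⟩ ?_ subset_union_right (hR ▸ hM) hc (fun Y hY => ?_)
            (fun Y hY => h3 Y (List.mem_cons_of_mem _ (List.mem_append_right _ hY))) h4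
          · rw [hR, sqLR]
            exact coe_subset.2 (hRA.trans subset_union_right)
          · have hY' : Y ∈ X :: (L ++ G) := by
              rcases List.mem_cons.1 hY with rfl | hY
              · exact List.mem_cons_self
              · exact List.mem_cons_of_mem _ (List.mem_append_left _ hY)
            have h7 := hok Y hY'
            exact ⟨h7.1, h7.2.1, (ok_sq h7).trans (coe_subset.2 subset_union_left), h3 Y hY'⟩
        rw [Set.indicator_of_mem h3, Set.indicator_of_mem h4, Set.indicator_of_mem h5]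
        simp
      · rw [Set.indicator_of_notMem h4, mul_zero]
        exact ind_nonneg _ _
    · rw [Set.indicator_of_notMem h3, zero_mul]
      exact ind_nonneg _ _

end Vale.Agent.P167.H433
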