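import Vale.Agent.P167.H433.PsTr

/-!
# P167, `0 < q < 1`, (P2S): the hook in the four directions, the statement
-/

set_option autoImplicit false

namespace Vale.Agent.P167.H433

open Finset Vale.Agent.P167 Vale.Agent.P167.FK Vale.Agent.P167.FKA Vale.Agent.P167.H871
  Vale.Agent.P167.H632 Vale.Agent.P167.H192.TA Vale.Agent.P167.N.NET Vale.Agent.P167.H718
open Vale.Agent.P145.FB (PStep PConn)
open Relation (ReflTransGen)
open Vale.Agent.P167.H262 (Rsq mem_Rsq)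
open Vale.Agent.P167.N (Crs)
open Vale.Agent.P167.N.BAR (Sd sq)
open Vale.Agent.P167.H760 (Tr)

variable {Q : ℝ} {z : Pt} {e : Bool} {D : Finset Pt} {η ω : Cfg} {F : Cfg → ℝ} {r : Fin 4}
  {a b p q u v : ℤ} {m : ℕ}

/-- The crossing of the rectangle, as a path of sites. -/
def PS (e : Bool) (R : Crs) : Set Cfg :=
  {ω | ∃ x ∈ Sd (pr e) R false, ∃ y ∈ Sd (pr e) R true, Pw (cs e ω ∩ sq R) x y}

/-- The crossing of the rectangle, joined to `z` inside of `K`. -/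
def HR (e : Bool) (z : Pt) (K : Finset Pt) (R : Crs) : Set Cfg :=
  {ω | ∃ x ∈ Sd (pr e) R false, ∃ y ∈ Sd (pr e) R true, Pw (cs e ω ∩ sq R) x y ∧
    Pw (cs e ω ∩ ↑K) z x}

theorem cs_T (ho : (rT r z).o = false) {X : Set Pt} :
    {x | (rT r z).Q x ∈ cs e ((rT r z).C ω) ∩ X} = cs e ω ∩ {x | (rT r z).Q x ∈ X} := by
  ext x
  refine and_congr_left fun _ => ?_
  show (rT r z).C ω ((rT r z).Q x) = e ↔ ω x = e
  rw [(rT r z).C_apply, ho]
  rfl

theorem sq_T (d : Bool) : {x | (rT r z).Q x ∈ sq (LR r z d a b p q)} =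
    ↑(Rsq (z.1 + a) (z.1 + b) (z.2 + p) (z.2 + q)) := by
  ext x
  rw [mem_coe, ← rT_LQ (r := r), memLQ]
  fin_cases r <;> rfl

theorem ps_T (h : (rT r z).C ω ∈ PS e (LR r z true 0 (4 * m) (2 * m) (3 * m))) :
    ω ∈ Jn e ↑(Rsq z.1 (z.1 + 4 * m) (z.2 + 2 * m) (z.2 + 3 * m))
        (Vs e z.1 (z.2 + 2 * m) (z.2 + 3 * m))
        (Vs e (z.1 + 4 * m) (z.2 + 2 * m) (z.2 + 3 * m)) := by
  obtain ⟨x, hx, y, hy, h1⟩ := h
  obtain ⟨x, rfl⟩ := (rT r z).S.surjective x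
  obtain ⟨y, rfl⟩ := (rT r z).S.surjective y
  rw [pw_T rT_o, cs_T rT_o, sq_T, add_zero] at h1
  cases hf : fl r
  · have h2 := rT_Sd' (e := e) false (by rw [hf]; exact hx)
    have h3 := rT_Sd' (e := e) true (by rw [hf]; exact hy)
    simp only [Bool.false_eq_true, if_false, if_true] at h2 h3
    exact ⟨x, ⟨by omega, by omega, by omega, h2.1⟩, y, ⟨by omega, by omega, by omega, h3.1⟩, h1⟩
  · have h2 := rT_Sd' (e := e) true (by rw [hf]; exact hx)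
    have h3 := rT_Sd' (e := e) false (by rw [hf]; exact hy)
    simp only [Bool.false_eq_true, if_false, if_true] at h2 h3
    exact ⟨y, ⟨by omega, by omega, by omega, h3.1⟩, x, ⟨by omega, by omega, by omega, h2.1⟩,
      h1.symm⟩

theorem hk_T (hm : 1 ≤ m) (h : ω ∈ HK e z ↑(Rsq (z.1 - m) (z.1 + 4 * m) z.2 (z.2 + 3 * m))
      ↑(Rsq z.1 (z.1 + 4 * m) (z.2 + 2 * m) (z.2 + 3 * m))
      (Vs e z.1 (z.2 + 2 * m) (z.2 + 3 * m))
      (Vs e (z.1 + 4 * m) (z.2 + 2 * m) (z.2 + 3 * m))) :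
    (rT r z).C ω ∈ HR e z (LQ r z (-m) (4 * m) 0 (3 * m))
      (LR r z true 0 (4 * m) (2 * m) (3 * m)) := by
  obtain ⟨x, ⟨x1, x2, x3, x4⟩, y, ⟨y1, y2, y3, y4⟩, h1, h2⟩ := h
  have e1 : (↑(Rsq z.1 (z.1 + 4 * m) (z.2 + 2 * m) (z.2 + 3 * m)) : Set Pt) =
      {x | (rT r z).Q x ∈ sq (LR r z true 0 (4 * m) (2 * m) (3 * m))} := by
    rw [sq_T, add_zero]
  have e2 : (↑(Rsq (z.1 - m) (z.1 + 4 * m) z.2 (z.2 + 3 * m)) : Set Pt) =
      {x | (rT r z).Q x ∈ (↑(LQ r z (-m) (4 * m) 0 (3 * m)) : Set Pt)} := by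
    ext x
    rw [Set.mem_ofPred_eq, mem_coe, mem_coe, rT_LQ, add_zero]
    rfl
  have h3 : Pw (cs e ω ∩ ↑(Rsq (z.1 - m) (z.1 + 4 * m) z.2 (z.2 + 3 * m))) x y := by
    refine Pw.mono ?_ h1
    rintro v ⟨w1, w2⟩
    refine ⟨w1, ?_⟩
    rw [mem_coe, mem_Rsq] at w2 ⊢
    omega
  rw [e1, ← cs_T rT_o, ← pw_T rT_o] at h1
  rw [e2, ← cs_T rT_o, ← pw_T rT_o] at h2 h3
  rw [rT_z] at h2
  have i1 : (rT r z).S x ∈ Sd (pr e) (LR r z true 0 (4 * m) (2 * m) (3 * m)) (xor false (fl r)) :=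
    rT_Sd (by omega) false x4 (by simp; omega) (by omega) (by omega)
  have i2 : (rT r z).S y ∈ Sd (pr e) (LR r z true 0 (4 * m) (2 * m) (3 * m)) (xor true (fl r)) :=
    rT_Sd (by omega) true y4 (by simp; omega) (by omega) (by omega)
  cases hf : fl r
  · rw [hf] at i1 i2
    exact ⟨_, i1, _, i2, h1, h2⟩
  · rw [hf] at i1 i2
    exact ⟨_, i2, _, i1, h1.symm, h2.trans h3⟩

theorem arm_T' (hm : 1 ≤ m) (hz : (z.1 + z.2) % 2 = pr e)
    (h : (rT r z).C ω ∈ Arm e (LQ r z (-m) m 0 m) z m) : ω ∈ Jn e ↑(HBx z m) {z} (SO e z m) := by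
  have h1 : (rT r z).C ω ∈ Arm e (LQ r z (-m) m 0 m) ((rT r z).S z) m := by
    rw [rT_z]
    exact h
  rw [← arm_T rT_o] at h1
  have hU : Up ((rT r z).pre (LQ r z (-m) m 0 m)) z m := by
    intro v hv
    rw [(rT r z).mem_pre, rT_LQ, mem_Rsq]
    rw [mBq] at hv
    omega
  rwa [hU.arm le_rfl hm hz] at h1

/-- **The hook, any direction.** -/
theorem hook_r (hQ : 0 < Q) (hQ1 : Q ≤ 1) (hV : VRS Q) : ∃ c : ℝ, 0 < c ∧ c ≤ 1 ∧
    ∀ {r : Fin 4} {e : Bool} {z : Pt} {m : ℕ} {D : Finset Pt} {η : Cfg} {F : Cfg → ℝ}, 6 ≤ m →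
      Good η → (z.1 + z.2) % 2 = pr e → LQ r z (-m) (4 * m) 0 (3 * m) ⊆ D →
      (∀ ω, 0 ≤ F ω) →
      (∀ ω ω' : Cfg, (∀ v, v ∉ LQ r z (-m) m 0 (3 * m) → ω' v = ω v) → F ω' = F ω) →
      c * Ex Q D η (fun ω => F ω * (PS e (LR r z true 0 (4 * m) (2 * m) (3 * m))).indicator 1 ω *
          (Arm e (LQ r z (-m) m 0 m) z m).indicator 1 ω) ≤
      Ex Q D η (fun ω => F ω * (HR e z (LQ r z (-m) (4 * m) 0 (3 * m))
        (LR r z true 0 (4 * m) (2 * m) (3 * m))).indicator 1 ω) := by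
  obtain ⟨c, hc0, hc1, h⟩ := hook_can hQ hQ1 hV
  refine ⟨c, hc0, hc1, ?_⟩
  intro r e z m D η F hm hη hz hD hF0 hF
  obtain ⟨T, hT⟩ : ∃ T : Tr, T = rT r z := ⟨_, rfl⟩
  have hη' : Good (T.Ci η) := T.good_T' (by rw [T.C_Ci]; exact hη)
  have key := h (e := e) (z := z) (m := m) (D := T.pre D) (η := T.Ci η)
    (F := fun ω => F (T.C ω)) hm hη' hz (fun w hw => by
      rw [T.mem_pre]
      refine hD ?_
      rw [hT, rT_LQ, add_zero]
      exact hw) (fun ω => hF0 _) (fun ω ω' hω => hF _ _ fun v hv => by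
        obtain ⟨v, rfl⟩ := T.Q.surjective v
        rw [T.C_apply, T.C_apply, hω v fun h4 => hv (by
          rw [hT, rT_LQ, add_zero]
          exact h4)])
  rw [← T.Ex_pre Q D η, ← T.Ex_pre Q D η]
  refine le_trans (mul_le_mul_of_nonneg_left (Ex_mono hQ fun S _ => ?_) hc0.le)
    (key.trans (Ex_mono hQ fun S _ => ?_))
  · refine mul_le_mul (mul_le_mul_of_nonneg_left ?_ (hF0 _)) ?_ ?_ ?_
    · by_cases h1 : T.C (cf (T.pre D) (T.Ci η) S) ∈ PS e (LR r z true 0 (4 * m) (2 * m) (3 * m))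
      · rw [Set.indicator_of_mem h1, Set.indicator_of_mem (ps_T (r := r)
          (by rw [← hT]; exact h1))]
        rfl
      · rw [Set.indicator_of_notMem h1]
        exact Set.indicator_nonneg (fun _ _ => zero_le_one) _
    · by_cases h1 : T.C (cf (T.pre D) (T.Ci η) S) ∈ Arm e (LQ r z (-m) m 0 m) z m
      · rw [Set.indicator_of_mem h1, Set.indicator_of_mem (arm_T' (r := r) (by omega) hz
          (by rw [← hT]; exact h1))]
        rfl
      · rw [Set.indicator_of_notMem h1]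
        exact Set.indicator_nonneg (fun _ _ => zero_le_one) _
    · exact Set.indicator_nonneg (fun _ _ => zero_le_one) _
    · exact mul_nonneg (hF0 _) (Set.indicator_nonneg (fun _ _ => zero_le_one) _)
  · refine mul_le_mul_of_nonneg_left ?_ (hF0 _)
    by_cases h1 : cf (T.pre D) (T.Ci η) S ∈ HK e z
        ↑(Rsq (z.1 - m) (z.1 + 4 * m) z.2 (z.2 + 3 * m))
        ↑(Rsq z.1 (z.1 + 4 * m) (z.2 + 2 * m) (z.2 + 3 * m))
        (Vs e z.1 (z.2 + 2 * m) (z.2 + 3 * m))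
        (Vs e (z.1 + 4 * m) (z.2 + 2 * m) (z.2 + 3 * m))
    · subst hT
      rw [Set.indicator_of_mem h1, Set.indicator_of_mem (hk_T (by omega) h1)]
      rfl
    · rw [Set.indicator_of_notMem h1]
      exact Set.indicator_nonneg (fun _ _ => zero_le_one) _

end Vale.Agent.P167.H433
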