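import Vale.Agent.P167.H433.PsHook
import Vale.Agent.P167.H433.PsDef

/-!
# P167, `0 < q < 1`, (P2S): the hook in the four directions
-/

set_option autoImplicit false

namespace Vale.Agent.P167.H433

open Finset Vale.Agent.P167 Vale.Agent.P167.FK Vale.Agent.P167.FKA Vale.Agent.P167.H871
  Vale.Agent.P167.H632 Vale.Agent.P167.H192.TA Vale.Agent.P167.N.NET Vale.Agent.P167.H718
open Vale.Agent.P145.FB (PStep PConn)
open Relation (ReflTransGen)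
open Vale.Agent.P167.H262 (Rsq mem_Rsq)
open Vale.Agent.P167.N (Crs)
open Vale.Agent.P167.N.QL (mvT mvT_S mvT_Q mvT_o)
open Vale.Agent.P167.H760 (Tr)
open Vale.Agent.P167.E6 (dir face)

variable {Q : ℝ} {z : Pt} {e : Bool} {D : Finset Pt} {η ω : Cfg} {F : Cfg → ℝ} {r : Fin 4}
  {a b p q u v : ℤ} {m : ℕ}

theorem memLQ {w : Pt} : w ∈ LQ r z a b p q ↔
    (LR r z true a b p q).a ≤ w.1 ∧ w.1 < (LR r z true a b p q).b ∧
      (LR r z true a b p q).p ≤ w.2 ∧ w.2 < (LR r z true a b p q).q := by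
  unfold LQ
  rw [mem_Rsq]

theorem lR0 (d : Bool) : LR 0 z d a b p q = ⟨d, z.1 - b, z.1 - a, z.2 - q, z.2 - p⟩ := rfl
theorem lR1 (d : Bool) : LR 1 z d a b p q = ⟨!d, z.1 + p, z.1 + q, z.2 - b, z.2 - a⟩ := rfl
theorem lR2 (d : Bool) : LR 2 z d a b p q = ⟨d, z.1 + a, z.1 + b, z.2 + p, z.2 + q⟩ := rfl
theorem lR3 (d : Bool) : LR 3 z d a b p q = ⟨!d, z.1 - q, z.1 - p, z.2 + a, z.2 + b⟩ := rfl

/-- The rotation about `z` which maps the canonical frame to the frame of the direction `r`. -/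
def rT (r : Fin 4) (z : Pt) : Tr := mvT z z (r + 2)

theorem rT_o : (rT r z).o = false := mvT_o Iff.rfl _

theorem rT_S (x : Pt) : (rT r z).S x = lc r z (x.1 - z.1) (x.2 - z.2) := by
  unfold rT lc
  rw [mvT_S]
  fin_cases r <;> ext <;> simp [dir] <;> ring

theorem rT_z : (rT r z).S z = z := by
  rw [rT_S]
  fin_cases r <;> ext <;> simp [lc]

theorem rT_Q (w : Pt) : (rT r z).Q w =
    ![(2 * z.1 - w.1 - 1, 2 * z.2 - w.2 - 1), (z.1 + (w.2 - z.2), z.2 - (w.1 - z.1) - 1), w,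
      (z.1 - (w.2 - z.2) - 1, z.2 + (w.1 - z.1))] r := by
  unfold rT
  rw [mvT_Q, mvT_S]
  fin_cases r <;> ext <;> simp [dir, face] <;> ring

theorem rT_LQ (w : Pt) : (rT r z).Q w ∈ LQ r z a b p q ↔
    w ∈ Rsq (z.1 + a) (z.1 + b) (z.2 + p) (z.2 + q) := by
  rw [memLQ, mem_Rsq, rT_Q]
  fin_cases r
  · show (z.1 - b ≤ 2 * z.1 - w.1 - 1 ∧ 2 * z.1 - w.1 - 1 < z.1 - a ∧
      z.2 - q ≤ 2 * z.2 - w.2 - 1 ∧ 2 * z.2 - w.2 - 1 < z.2 - p) ↔ _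
    omega
  · show (z.1 + p ≤ z.1 + (w.2 - z.2) ∧ z.1 + (w.2 - z.2) < z.1 + q ∧
      z.2 - b ≤ z.2 - (w.1 - z.1) - 1 ∧ z.2 - (w.1 - z.1) - 1 < z.2 - a) ↔ _
    omega
  · show (z.1 + a ≤ w.1 ∧ w.1 < z.1 + b ∧ z.2 + p ≤ w.2 ∧ w.2 < z.2 + q) ↔ _
    omega
  · show (z.1 - q ≤ z.1 - (w.2 - z.2) - 1 ∧ z.1 - (w.2 - z.2) - 1 < z.1 - p ∧
      z.2 + a ≤ z.2 + (w.1 - z.1) ∧ z.2 + (w.1 - z.1) < z.2 + b) ↔ _
    omega

/-- The first side of the rectangle is mapped to the first or to the last side. -/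
def fl (r : Fin 4) : Bool := r == 0 || r == 1

theorem rT_Sd (hab : a ≤ b) {x : Pt} (i : Bool) (hx : (x.1 + x.2) % 2 = pr e)
    (h1 : x.1 = z.1 + if i then b else a) (h2 : z.2 + p ≤ x.2) (h3 : x.2 ≤ z.2 + q) :
    (rT r z).S x ∈ N.BAR.Sd (pr e) (LR r z true a b p q) (xor i (fl r)) := by
  have hp : (((rT r z).S x).1 + ((rT r z).S x).2) % 2 = pr e := (par_pr rT_o).2 hx
  refine ⟨hp, ?_⟩
  rw [rT_S]
  fin_cases r
  · show z.1 - b ≤ z.1 - (x.1 - z.1) ∧ z.1 - (x.1 - z.1) ≤ z.1 - a ∧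
      z.2 - q ≤ z.2 - (x.2 - z.2) ∧ z.2 - (x.2 - z.2) ≤ z.2 - p ∧
      z.1 - (x.1 - z.1) = if xor i (fl 0) then z.1 - a else z.1 - b
    cases i <;> simp [fl] at h1 ⊢ <;> omega
  · show z.1 + p ≤ z.1 + (x.2 - z.2) ∧ z.1 + (x.2 - z.2) ≤ z.1 + q ∧
      z.2 - b ≤ z.2 - (x.1 - z.1) ∧ z.2 - (x.1 - z.1) ≤ z.2 - a ∧
      if (!true) = true then _ else
      z.2 - (x.1 - z.1) = if xor i (fl 1) then z.2 - a else z.2 - b
    cases i <;> simp [fl] at h1 ⊢ <;> omega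
  · show z.1 + a ≤ z.1 + (x.1 - z.1) ∧ z.1 + (x.1 - z.1) ≤ z.1 + b ∧
      z.2 + p ≤ z.2 + (x.2 - z.2) ∧ z.2 + (x.2 - z.2) ≤ z.2 + q ∧
      z.1 + (x.1 - z.1) = if xor i (fl 2) then z.1 + b else z.1 + a
    cases i <;> simp [fl] at h1 ⊢ <;> omega
  · show z.1 - q ≤ z.1 - (x.2 - z.2) ∧ z.1 - (x.2 - z.2) ≤ z.1 - p ∧
      z.2 + a ≤ z.2 + (x.1 - z.1) ∧ z.2 + (x.1 - z.1) ≤ z.2 + b ∧
      if (!true) = true then _ else
      z.2 + (x.1 - z.1) = if xor i (fl 3) then z.2 + b else z.2 + a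
    cases i <;> simp [fl] at h1 ⊢ <;> omega

/-- Conversely. -/
theorem rT_Sd' {x : Pt} (i : Bool)
    (h : (rT r z).S x ∈ N.BAR.Sd (pr e) (LR r z true a b p q) (xor i (fl r))) :
    (x.1 + x.2) % 2 = pr e ∧ x.1 = z.1 + (if i then b else a) ∧ z.2 + p ≤ x.2 ∧ x.2 ≤ z.2 + q := by
  obtain ⟨hp, h⟩ := h
  have hx : (x.1 + x.2) % 2 = pr e := (par_pr rT_o).1 hp
  refine ⟨hx, ?_⟩
  rw [rT_S] at h
  fin_cases r
  · change z.1 - b ≤ z.1 - (x.1 - z.1) ∧ z.1 - (x.1 - z.1) ≤ z.1 - a ∧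
      z.2 - q ≤ z.2 - (x.2 - z.2) ∧ z.2 - (x.2 - z.2) ≤ z.2 - p ∧
      z.1 - (x.1 - z.1) = (if xor i (fl 0) then z.1 - a else z.1 - b) at h
    cases i <;> simp [fl] at h ⊢ <;> omega
  · change z.1 + p ≤ z.1 + (x.2 - z.2) ∧ z.1 + (x.2 - z.2) ≤ z.1 + q ∧
      z.2 - b ≤ z.2 - (x.1 - z.1) ∧ z.2 - (x.1 - z.1) ≤ z.2 - a ∧
      (z.2 - (x.1 - z.1) = if xor i (fl 1) then z.2 - a else z.2 - b) at h
    cases i <;> simp [fl] at h ⊢ <;> omega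
  · change z.1 + a ≤ z.1 + (x.1 - z.1) ∧ z.1 + (x.1 - z.1) ≤ z.1 + b ∧
      z.2 + p ≤ z.2 + (x.2 - z.2) ∧ z.2 + (x.2 - z.2) ≤ z.2 + q ∧
      (z.1 + (x.1 - z.1) = if xor i (fl 2) then z.1 + b else z.1 + a) at h
    cases i <;> simp [fl] at h ⊢ <;> omega
  · change z.1 - q ≤ z.1 - (x.2 - z.2) ∧ z.1 - (x.2 - z.2) ≤ z.1 - p ∧
      z.2 + a ≤ z.2 + (x.1 - z.1) ∧ z.2 + (x.1 - z.1) ≤ z.2 + b ∧
      (z.2 + (x.1 - z.1) = if xor i (fl 3) then z.2 + b else z.2 + a) at h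
    cases i <;> simp [fl] at h ⊢ <;> omega

end Vale.Agent.P167.H433
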