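import Vale.Agent.P167.H433.PsAz
import Vale.Agent.P167.N.ID.TOneG

/-!
# P167, `0 < q < 1`, (P2S): the site is joined to far away and surrounded by a ring
-/

set_option autoImplicit false

namespace Vale.Agent.P167.H433

open Finset MeasureTheory Vale.Agent.P167 Vale.Agent.P167.FK Vale.Agent.P167.FKA
  Vale.Agent.P167.H871 Vale.Agent.P167.H632 Vale.Agent.P167.H192.TA Vale.Agent.P167.N.NET
open Vale.Agent.P167.N (Crs Kit)
open Vale.Agent.P167.N.BAR (Sd sq Mt Ch lst)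
open Vale.Agent.P167.N.ID (AZ ArmX)

variable {Q : ℝ} {z t : Pt} {e : Bool} {D A U T I : Finset Pt} {η ω σ : Cfg} {F : Cfg → ℝ}
  {r : Fin 4} {a b p q u v s R r₁ : ℤ} {m κ : ℕ} {X Y : Crs} {L G : List Crs} {j : Bool}

/-- The squares of the ring. -/
noncomputable def rF (z : Pt) (r₁ : ℤ) : Finset Pt := Bq z (2 * r₁) \ Bq z r₁

theorem mrF {v : Pt} : v ∈ rF z r₁ ↔ ((z.1 - 2 * r₁ ≤ v.1 ∧ v.1 < z.1 + 2 * r₁) ∧
    z.2 - 2 * r₁ ≤ v.2 ∧ v.2 < z.2 + 2 * r₁) ∧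
    ¬ ((z.1 - r₁ ≤ v.1 ∧ v.1 < z.1 + r₁) ∧ z.2 - r₁ ≤ v.2 ∧ v.2 < z.2 + r₁) := by
  unfold rF
  rw [mem_sdiff, mBq, mBq]

/-- The local box is near. -/
theorem lq_bq {v : Pt} {k : ℤ} (h : v ∈ LQ r z (-k) k (-k) k) : v ∈ Bq z k := by
  obtain ⟨v, rfl⟩ := (rT r z).Q.surjective v
  rw [bq_rT, mBq]
  rw [rT_LQ, H262.mem_Rsq] at h
  omega

theorem lq_sub {a' b' p' q' : ℤ} (h1 : a' ≤ a) (h2 : b ≤ b') (h3 : p' ≤ p) (h4 : q ≤ q') :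
    LQ r z a b p q ⊆ LQ r z a' b' p' q' := by
  intro v hv
  rw [mLQ] at *
  omega

/-- **(X)** The arm of the site is continued along a chain, the ring is crossed. -/
theorem hook_X {Q : ℝ} (K : Kit Q) (n₀ κ : ℕ) : ∃ (c : ℝ) (s0 : ℤ), 0 < c ∧ c ≤ 1 ∧ 1 ≤ s0 ∧
    ∀ {r : Fin 4} {e : Bool} {z : Pt} {m : ℕ} {s r₁ : ℤ} {A D U : Finset Pt} {η : Cfg}
      {W : Cfg → ℝ} {X : Crs} {L : List Crs} {j : Bool}, Good η → (z.1 + z.2) % 2 = pr e →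
      s0 ≤ s → s ≤ m → 4 * (m : ℤ) ≤ κ * s → s ≤ r₁ → 4 * r₁ ≤ κ * s → 4 * (m : ℤ) ≤ r₁ →
      (∀ v ∈ LQ r z (-m) m (-1) 0, v ∈ U) →
      LQ r z (-m) (4 * m) 0 (3 * m) ⊆ D → A ⊆ D → rF z r₁ ⊆ D →
      Disjoint A (LQ r z (-m) m 0 (3 * m)) → Mt (LR r z true 0 (4 * m) (2 * m) (3 * m)) X →
      Ch X L → L.length + 1 ≤ n₀ → (∀ Y ∈ X :: L, Y.Ok s κ A) →
      (∀ ω, 0 ≤ W ω) → Ind ((A ∪ rF z r₁) ∪ LQ r z (-m) (4 * m) 0 (3 * m)) W →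
      c * Ex Q D η (fun ω => W ω * (AZ e U z m).indicator 1 ω) ≤
        Ex Q D η (fun ω => W ω * (PE e z ((A ∪ rF z r₁) ∪ LQ r z (-m) (4 * m) 0 (3 * m))
          (lst X L) j (rg z r₁ (2 * r₁))).indicator 1 ω) := by
  obtain ⟨c, s0, h1, h2, h3, h⟩ := pn_az K (n₀ + 4) κ
  refine ⟨c, s0, h1, h2, h3, ?_⟩
  intro r e z m s r₁ A D U η W X L j hη hz hs hsm hκ hs1 hκ1 hm1 hU hLD hAD hRD hdis hM hc hn hok
    hW0 hW
  refine h hη hz hs hsm hκ hU hLD (union_subset hAD hRD) ?_ hM hc ?_ ?_ hW0 hW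
  · rw [disjoint_union_left]
    refine ⟨hdis, Finset.disjoint_left.2 fun v hv hv' => ?_⟩
    have h4 := mBq.1 (lq_bq (k := 4 * m) (lq_sub (by omega) (by omega) (by omega) (by omega) hv'))
    rw [mrF] at hv
    omega
  · simp only [rg, List.length_cons, List.length_nil]
    omega
  · intro Y hY
    rcases List.mem_cons.1 hY with rfl | hY
    · exact ok_mono subset_union_left (hok _ List.mem_cons_self)
    · rcases List.mem_append.1 hY with hY | hY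
      · exact ok_mono subset_union_left (hok _ (List.mem_cons_of_mem _ hY))
      · refine rg_ok (by omega) (by omega) (by omega) (by omega) (fun v h1 h2 h3 h4 h5 => ?_) Y hY
        refine mem_union_right _ (mrF.2 ?_)
        omega

/-- The arm and the ring. -/
theorem armX_of (hz : (z.1 + z.2) % 2 = pr e) (hI : ∀ w ∈ I, nm (w - z) + 2 ≤ r₁) (hr : 0 < r₁)
    (hT : ∀ v ∈ T, v ∉ I) (hf : ∀ t ∈ Sd (pr e) Y j, 2 * r₁ + 2 ≤ nm (t - z))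
    (h : ω ∈ PE e z T Y j (rg z r₁ (2 * r₁))) : ∃ e' e'' t M M', ArmX I z ω e' e'' t M M' := by
  obtain ⟨⟨t, h1, h2⟩, h3⟩ := h
  refine ⟨e, e, t, r₁, 2 * r₁, hz, hI, by omega, nx_rg (by omega) h3, Pw.mono ?_ h2, hf t h1⟩
  exact fun v hv => ⟨hv.1, hT v (mem_coe.1 hv.2)⟩

end Vale.Agent.P167.H433
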